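import Vale.Agent.P026.AG.Power
import Vale.Agent.P026.TP.Base

/-!
# P026 AG: the generating function on rays from the sums over residue classes
-/

open Finset ArithmeticFunction

namespace Vale.Agent.P026.AG

open Vale.Agent.P026.TP

theorem abel_sum {g : ℕ → ℝ} {r : ℝ}
    (hA : Summable (fun n : ℕ => (∑ m ∈ range (n + 1), g m) * r ^ n)) :
    Summable (fun n : ℕ => g n * r ^ n) ∧
      ∑' n : ℕ, g n * r ^ n = (1 - r) * ∑' n : ℕ, (∑ m ∈ range (n + 1), g m) * r ^ n := by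
  set A : ℕ → ℝ := fun n => ∑ m ∈ range (n + 1), g m with hAdef
  have h1 : ∀ n : ℕ, g (n + 1) * r ^ (n + 1) = A (n + 1) * r ^ (n + 1) - r * (A n * r ^ n) := by
    intro n
    have : A (n + 1) = A n + g (n + 1) := by
      rw [hAdef]; simp only; rw [Finset.sum_range_succ]
    rw [this, pow_succ]
    ring
  have hA1 : Summable (fun n : ℕ => A (n + 1) * r ^ (n + 1)) := (summable_nat_add_iff 1).mpr hA
  have hg1 : Summable (fun n : ℕ => g (n + 1) * r ^ (n + 1)) := by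
    simp only [h1]
    exact hA1.sub (hA.mul_left r)
  have hg : Summable (fun n : ℕ => g n * r ^ n) := (summable_nat_add_iff 1).mp hg1
  refine ⟨hg, ?_⟩
  have h2 : ∑' n : ℕ, A n * r ^ n = A 0 * r ^ 0 + ∑' n : ℕ, A (n + 1) * r ^ (n + 1) :=
    hA.tsum_eq_zero_add
  have h3 : A 0 = g 0 := by simp [hAdef]
  have h4 : ∑' n : ℕ, g n * r ^ n = g 0 * r ^ 0 + (∑' n : ℕ, A (n + 1) * r ^ (n + 1) -
      r * ∑' n : ℕ, A n * r ^ n) := by
    rw [hg.tsum_eq_zero_add]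
    simp only [h1]
    rw [hA1.tsum_sub (hA.mul_left r), tsum_mul_left]
  rw [h3] at h2
  show ∑' n : ℕ, g n * r ^ n = (1 - r) * ∑' n : ℕ, A n * r ^ n
  rw [h4]
  linear_combination (-1 : ℝ) * h2

/-- `∑ n ^ (k - δ) rⁿ ≤ (k! + 1) T ^ (k + 1 - δ)` -/
theorem sum_rpow_le' (k : ℕ) {δ r : ℝ} (hδ0 : 0 ≤ δ) (hδk : δ ≤ k) (hr0 : 0 ≤ r) (hr1 : r < 1) :
    Summable (fun n : ℕ => (n : ℝ) ^ ((k : ℝ) - δ) * r ^ n) ∧
      ∑' n : ℕ, (n : ℝ) ^ ((k : ℝ) - δ) * r ^ n ≤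
        ((k.factorial : ℝ) + 1) * (1 / (1 - r)) ^ ((k : ℝ) + 1 - δ) := by
  have hd : 0 < 1 - r := by linarith
  set T : ℝ := 1 / (1 - r) with hT
  have hT0 : 0 < T := by positivity
  have hrn : ‖r‖ < 1 := by rwa [Real.norm_of_nonneg hr0]
  have h0 : HasSum (fun n : ℕ => r ^ n) T := by
    rw [hT, one_div]; exact hasSum_geometric_of_lt_one hr0 hr1
  obtain ⟨h2s, h2⟩ := sum_pow_le' k hr0 hr1
  have hTd : 0 < T ^ (-δ) := Real.rpow_pos_of_pos hT0 _
  have hpt : ∀ n : ℕ, (n : ℝ) ^ ((k : ℝ) - δ) * r ^ n ≤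
      T ^ (-δ) * ((n : ℝ) ^ k * r ^ n) + T ^ (-δ) * T ^ k * r ^ n := by
    intro n
    have hrp : 0 ≤ r ^ n := pow_nonneg hr0 n
    have : (n : ℝ) ^ ((k : ℝ) - δ) ≤ T ^ (-δ) * (n : ℝ) ^ k + T ^ (-δ) * T ^ k := by
      rcases le_or_gt (n : ℝ) T with hn | hn
      · have h8 : (n : ℝ) ^ ((k : ℝ) - δ) ≤ T ^ ((k : ℝ) - δ) :=
          Real.rpow_le_rpow (Nat.cast_nonneg n) hn (by linarith)
        have h9 : T ^ ((k : ℝ) - δ) = T ^ (-δ) * T ^ k := by
          rw [← Real.rpow_natCast, ← Real.rpow_add hT0]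
          congr 1; ring
        have h10 : 0 ≤ T ^ (-δ) * (n : ℝ) ^ k := by positivity
        linarith
      · have hn0 : (0 : ℝ) < n := hT0.trans hn
        have h8 : (n : ℝ) ^ (-δ) ≤ T ^ (-δ) :=
          Real.rpow_le_rpow_of_nonpos hT0 hn.le (by linarith)
        have h9 : (n : ℝ) ^ ((k : ℝ) - δ) = (n : ℝ) ^ (-δ) * (n : ℝ) ^ k := by
          rw [← Real.rpow_natCast, ← Real.rpow_add hn0]
          congr 1; ring
        have h10 : 0 ≤ T ^ (-δ) * T ^ k := by positivity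
        rw [h9]
        have h11 : (n : ℝ) ^ (-δ) * (n : ℝ) ^ k ≤ T ^ (-δ) * (n : ℝ) ^ k :=
          mul_le_mul_of_nonneg_right h8 (by positivity)
        linarith
    calc (n : ℝ) ^ ((k : ℝ) - δ) * r ^ n ≤ (T ^ (-δ) * (n : ℝ) ^ k + T ^ (-δ) * T ^ k) * r ^ n :=
          mul_le_mul_of_nonneg_right this hrp
      _ = _ := by ring
  have hsum2 : Summable (fun n : ℕ =>
      T ^ (-δ) * ((n : ℝ) ^ k * r ^ n) + T ^ (-δ) * T ^ k * r ^ n) :=
    (h2s.mul_left _).add (h0.summable.mul_left _)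
  have hsum : Summable (fun n : ℕ => (n : ℝ) ^ ((k : ℝ) - δ) * r ^ n) :=
    Summable.of_nonneg_of_le (fun n => by positivity) hpt hsum2
  refine ⟨hsum, (hsum.tsum_le_tsum hpt hsum2).trans ?_⟩
  rw [(h2s.mul_left _).tsum_add (h0.summable.mul_left _), tsum_mul_left, tsum_mul_left, h0.tsum_eq]
  have h9 : T ^ ((k : ℝ) + 1 - δ) = T ^ (-δ) * T ^ (k + 1) := by
    rw [← Real.rpow_natCast, ← Real.rpow_add hT0]
    congr 1; push_cast; ring
  rw [h9]
  have := mul_le_mul_of_nonneg_left h2 hTd.le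
  have h10 : T ^ (-δ) * T ^ k * T = T ^ (-δ) * T ^ (k + 1) := by rw [pow_succ]; ring
  rw [h10]
  nlinarith

/-- the restriction of `G_k` to a residue class -/
noncomputable def gc (k q c n : ℕ) : ℝ := if n ≡ c [MOD q] then G k n else 0

theorem SAP_eq (k q c : ℕ) (x : ℝ) : SAP k q c x = ∑ n ∈ range (⌊x⌋₊ + 1), gc k q c n := by
  rw [SAP, Finset.sum_filter]
  rfl

theorem G_zero_right {k : ℕ} (hk : 1 ≤ k) : G k 0 = 0 := by
  obtain ⟨j, rfl⟩ : ∃ j, k = j + 1 := ⟨k - 1, by omega⟩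
  simp [G]

/-- the generating function of a residue class -/
theorem class_gen {k q : ℕ} (hk : 1 ≤ k) {δ C : ℝ} (hδ0 : 0 < δ) (hδ1 : δ ≤ 1) (c : ℕ)
    (h : ∀ x : ℝ, 1 ≤ x → |SAP k q c x - dens k q c * (x ^ k / (k.factorial : ℝ))| ≤
      C * x ^ ((k : ℝ) - δ)) :
    ∃ C' : ℝ, 0 ≤ C' ∧ ∀ r : ℝ, 0 ≤ r → r < 1 →
      Summable (fun n : ℕ => gc k q c n * r ^ n) ∧
      |∑' n : ℕ, gc k q c n * r ^ n - dens k q c * (1 / (1 - r)) ^ k| ≤
        C' * (1 / (1 - r)) ^ ((k : ℝ) - δ) := by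
  have hk1 : (1 : ℝ) ≤ k := by exact_mod_cast hk
  obtain ⟨C₁, hC₁, hmain⟩ := sum_main k hk
  set d : ℝ := dens k q c with hd
  refine ⟨|C| * ((k.factorial : ℝ) + 1) + |d| * C₁, by positivity, fun r hr0 hr1 => ?_⟩
  have hd1 : 0 < 1 - r := by linarith
  set T : ℝ := 1 / (1 - r) with hT
  have hT0 : 0 < T := by positivity
  have hT1 : 1 ≤ T := by rw [hT, le_div_iff₀ hd1]; linarith
  have hrT : (1 - r) * T = 1 := by rw [hT]; field_simp
  set A : ℕ → ℝ := fun n => ∑ m ∈ range (n + 1), gc k q c m with hA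
  have hpt : ∀ n : ℕ, |A n - d * ((n : ℝ) ^ k / (k.factorial : ℝ))| ≤
      |C| * (n : ℝ) ^ ((k : ℝ) - δ) := by
    intro n
    rcases Nat.eq_zero_or_pos n with rfl | hn
    · have h0 : A 0 = 0 := by
        simp [hA, gc, G_zero_right hk]
      rw [h0, Nat.cast_zero, zero_pow (by omega)]
      simp only [zero_div, mul_zero, sub_zero, abs_zero]
      positivity
    · have h1 := h n (by exact_mod_cast hn)
      rw [SAP_eq, Nat.floor_natCast] at h1
      exact h1.trans (mul_le_mul_of_nonneg_right (le_abs_self _) (by positivity))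
  obtain ⟨hs1, hb1⟩ := sum_rpow_le' k hδ0.le (hδ1.trans hk1) hr0 hr1
  obtain ⟨hs2, -⟩ := sum_pow_le' k hr0 hr1
  have hs2' : Summable (fun n : ℕ => (n : ℝ) ^ k / (k.factorial : ℝ) * r ^ n) := by
    refine (hs2.mul_left ((k.factorial : ℝ)⁻¹)).congr fun n => ?_
    rw [div_eq_inv_mul]; ring
  have hE : Summable (fun n : ℕ => (A n - d * ((n : ℝ) ^ k / (k.factorial : ℝ))) * r ^ n) := by
    refine Summable.of_norm_bounded (hs1.mul_left |C|) fun n => ?_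
    rw [norm_mul, Real.norm_eq_abs, Real.norm_of_nonneg (pow_nonneg hr0 n), ← mul_assoc]
    exact mul_le_mul_of_nonneg_right (hpt n) (pow_nonneg hr0 n)
  have hAs : Summable (fun n : ℕ => A n * r ^ n) := by
    refine (hE.add (hs2'.mul_left d)).congr fun n => ?_
    ring
  obtain ⟨hg1, hg2⟩ := abel_sum (g := gc k q c) (r := r) hAs
  refine ⟨hg1, ?_⟩
  rw [hg2]
  have hEb : |∑' n : ℕ, (A n - d * ((n : ℝ) ^ k / (k.factorial : ℝ))) * r ^ n| ≤
      |C| * (((k.factorial : ℝ) + 1) * T ^ ((k : ℝ) + 1 - δ)) := by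
    have hB : HasSum (fun n : ℕ => |C| * ((n : ℝ) ^ ((k : ℝ) - δ) * r ^ n))
      (|C| * ∑' n : ℕ, (n : ℝ) ^ ((k : ℝ) - δ) * r ^ n) := hs1.hasSum.mul_left _
    have := tsum_of_norm_bounded hB
      (f := fun n : ℕ => (A n - d * ((n : ℝ) ^ k / (k.factorial : ℝ))) * r ^ n) (fun n => by
        rw [norm_mul, Real.norm_eq_abs, Real.norm_of_nonneg (pow_nonneg hr0 n), ← mul_assoc]
        exact mul_le_mul_of_nonneg_right (hpt n) (pow_nonneg hr0 n))
    rw [Real.norm_eq_abs] at this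
    exact this.trans (mul_le_mul_of_nonneg_left hb1 (abs_nonneg _))
  have hsplit : (1 - r) * ∑' n : ℕ, A n * r ^ n - d * T ^ k =
      (1 - r) * (∑' n : ℕ, (A n - d * ((n : ℝ) ^ k / (k.factorial : ℝ))) * r ^ n) +
      (1 - r) * d * (∑' n : ℕ, (n : ℝ) ^ k / (k.factorial : ℝ) * r ^ n - T ^ (k + 1)) := by
    have e1 : ∑' n : ℕ, A n * r ^ n =
        ∑' n : ℕ, (A n - d * ((n : ℝ) ^ k / (k.factorial : ℝ))) * r ^ n +
        d * ∑' n : ℕ, (n : ℝ) ^ k / (k.factorial : ℝ) * r ^ n := by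
      rw [← tsum_mul_left, ← hE.tsum_add (hs2'.mul_left d)]
      refine tsum_congr fun n => ?_
      ring
    have e2 : (1 - r) * T ^ (k + 1) = T ^ k := by
      rw [pow_succ', ← mul_assoc, hrT, one_mul]
    rw [e1]
    linear_combination d * e2
  show |(1 - r) * ∑' n : ℕ, A n * r ^ n - d * T ^ k| ≤ _
  rw [hsplit]
  refine (abs_add_le _ _).trans ?_
  rw [abs_mul, abs_mul, abs_mul, abs_of_pos hd1]
  have e3 : (1 - r) * T ^ ((k : ℝ) + 1 - δ) = T ^ ((k : ℝ) - δ) := by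
    have : T ^ ((k : ℝ) + 1 - δ) = T * T ^ ((k : ℝ) - δ) := by
      nth_rw 2 [← Real.rpow_one T]
      rw [← Real.rpow_add hT0]; congr 1; ring
    rw [this, ← mul_assoc, hrT, one_mul]
  have e4 : (1 - r) * T ^ k ≤ T ^ ((k : ℝ) - δ) := by
    have e5 : (1 - r) * T ^ k = T ^ (k - 1) := by
      have : T ^ k = T * T ^ (k - 1) := by rw [← pow_succ']; congr 1; omega
      rw [this, ← mul_assoc, hrT, one_mul]
    rw [e5, ← Real.rpow_natCast, Nat.cast_sub hk]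
    exact Real.rpow_le_rpow_of_exponent_le hT1 (by push_cast; linarith)
  have f1 : (1 - r) * |∑' n : ℕ, (A n - d * ((n : ℝ) ^ k / (k.factorial : ℝ))) * r ^ n| ≤
      |C| * ((k.factorial : ℝ) + 1) * T ^ ((k : ℝ) - δ) := by
    calc _ ≤ (1 - r) * (|C| * (((k.factorial : ℝ) + 1) * T ^ ((k : ℝ) + 1 - δ))) :=
          mul_le_mul_of_nonneg_left hEb hd1.le
      _ = |C| * ((k.factorial : ℝ) + 1) * ((1 - r) * T ^ ((k : ℝ) + 1 - δ)) := by ring
      _ = _ := by rw [e3]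
  have f2 : (1 - r) * |d| * |∑' n : ℕ, (n : ℝ) ^ k / (k.factorial : ℝ) * r ^ n - T ^ (k + 1)| ≤
      |d| * C₁ * T ^ ((k : ℝ) - δ) := by
    calc _ ≤ (1 - r) * |d| * (C₁ * T ^ k) :=
          mul_le_mul_of_nonneg_left (hmain r hr0 hr1) (by positivity)
      _ = |d| * C₁ * ((1 - r) * T ^ k) := by ring
      _ ≤ |d| * C₁ * T ^ ((k : ℝ) - δ) := mul_le_mul_of_nonneg_left e4 (by positivity)
  linarith

end Vale.Agent.P026.AG
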