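import Mathlib

/-! Roots of functions on a short interval `(0, u₀]`: general exponent. -/

open Set Filter Topology

namespace Vale.Agent.P026.AG

/-- the principal `k`-th root close to `1` -/
theorem kroot_bound {k : ℕ} (hk : 1 ≤ k) {V : ℂ} (hV : ‖V - 1‖ ≤ 1 / 2) :
    (V ^ ((k : ℕ) : ℂ)⁻¹) ^ k = V ∧ ‖V ^ ((k : ℕ) : ℂ)⁻¹ - 1‖ ≤ 3 * ‖V - 1‖ ∧
      V ∈ Complex.slitPlane := by
  have hre : 1 / 2 ≤ V.re := by
    have h1 := Complex.abs_re_le_norm (V - 1)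
    simp only [Complex.sub_re, Complex.one_re] at h1
    have h2 := neg_abs_le (V.re - 1)
    linarith
  have hV0 : V ≠ 0 := by
    intro h
    rw [h] at hre
    simp at hre
    linarith
  have hslit : V ∈ Complex.slitPlane := Or.inl (by linarith)
  refine ⟨Complex.cpow_nat_inv_pow V (by omega), ?_, hslit⟩
  have hk1 : (1 : ℝ) ≤ k := by exact_mod_cast hk
  have hlog : ‖Complex.log V‖ ≤ 3 / 2 * ‖V - 1‖ := by
    have := Complex.norm_log_one_add_half_le_self hV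
    rwa [add_sub_cancel] at this
  have hx : ‖Complex.log V * ((k : ℕ) : ℂ)⁻¹‖ ≤ 3 / 2 * ‖V - 1‖ := by
    rw [norm_mul, norm_inv, Complex.norm_natCast]
    have h1 : (k : ℝ)⁻¹ ≤ 1 := inv_le_one_of_one_le₀ hk1
    calc ‖Complex.log V‖ * (k : ℝ)⁻¹ ≤ ‖Complex.log V‖ * 1 :=
          mul_le_mul_of_nonneg_left h1 (norm_nonneg _)
      _ ≤ _ := by rw [mul_one]; exact hlog
  rw [Complex.cpow_def_of_ne_zero hV0]
  have h2 := Complex.norm_exp_sub_one_le (x := Complex.log V * ((k : ℕ) : ℂ)⁻¹) (by linarith)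
  linarith

/-- A continuous function whose `k`-th power is `(c / u)^k + O(u ^ (-k + δ))`. -/
theorem kth_root {k : ℕ} (hk : 1 ≤ k) {G : ℝ → ℂ} {u₀ c' δ : ℝ} {c : ℂ} (hu₀ : 0 < u₀)
    (hδ : 0 < δ) (hc : c ≠ 0) (hG : ContinuousOn G (Ioc 0 u₀))
    (h : ∀ u ∈ Ioc 0 u₀, ‖G u ^ k - c ^ k / (u : ℂ) ^ k‖ ≤ c' * u ^ (-(k : ℝ) + δ)) :
    ∃ (κ : ℂ) (C u₁ : ℝ), 0 < u₁ ∧ u₁ ≤ u₀ ∧ ∀ u ∈ Ioc 0 u₁,
      ‖G u - κ / (u : ℂ)‖ ≤ C * u ^ (-1 + δ) := by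
  have hcn : 0 < ‖c‖ := norm_pos_iff.mpr hc
  set K : ℝ := |c'| / ‖c‖ ^ k + 1 with hK
  have hK0 : 0 < K := by positivity
  -- choose `u₁` with `K u₁ ^ δ ≤ 1 / 2`
  have hlim : Tendsto (fun u : ℝ => K * u ^ δ) (𝓝[>] 0) (𝓝 0) := by
    have h1 : Tendsto (fun u : ℝ => u ^ δ) (𝓝[>] 0) (𝓝 0) := by
      have := (Real.continuousAt_rpow_const 0 δ (Or.inr hδ.le)).tendsto
      rw [Real.zero_rpow hδ.ne'] at this
      exact this.mono_left nhdsWithin_le_nhds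
    simpa using h1.const_mul K
  have hev : ∀ᶠ u : ℝ in 𝓝[>] 0, K * u ^ δ < 1 / 2 := hlim.eventually (gt_mem_nhds (by norm_num))
  obtain ⟨u₂, hu₂, hu₂'⟩ := (mem_nhdsGT_iff_exists_Ioc_subset).mp hev
  set u₁ : ℝ := min u₂ u₀ with hu₁
  have hu₁0 : 0 < u₁ := lt_min hu₂ hu₀
  have hu₁1 : u₁ ≤ u₀ := min_le_right _ _
  set V : ℝ → ℂ := fun u => ((u : ℂ) * G u / c) ^ k with hV
  have hVb : ∀ u ∈ Ioc 0 u₁, ‖V u - 1‖ ≤ K * u ^ δ := by
    intro u hu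
    have hu0 : 0 < u := hu.1
    have huc : (u : ℂ) ≠ 0 := by exact_mod_cast hu0.ne'
    have h1 := h u ⟨hu.1, hu.2.trans hu₁1⟩
    have e1 : V u - 1 = (u : ℂ) ^ k / c ^ k * (G u ^ k - c ^ k / (u : ℂ) ^ k) := by
      simp only [hV]
      rw [div_pow, mul_pow]
      field_simp
    rw [e1, norm_mul, norm_div, norm_pow, norm_pow, Complex.norm_real, Real.norm_of_nonneg hu0.le]
    calc u ^ k / ‖c‖ ^ k * ‖G u ^ k - c ^ k / (u : ℂ) ^ k‖
        ≤ u ^ k / ‖c‖ ^ k * (|c'| * u ^ (-(k : ℝ) + δ)) := by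
          refine mul_le_mul_of_nonneg_left (h1.trans ?_) (by positivity)
          exact mul_le_mul_of_nonneg_right (le_abs_self _) (by positivity)
      _ = |c'| / ‖c‖ ^ k * (u ^ (k : ℝ) * u ^ (-(k : ℝ) + δ)) := by
          rw [show u ^ (k : ℝ) = u ^ k by norm_cast]
          ring
      _ = |c'| / ‖c‖ ^ k * u ^ δ := by
          rw [← Real.rpow_add hu0]
          ring_nf
      _ ≤ K * u ^ δ := mul_le_mul_of_nonneg_right (by rw [hK]; linarith) (by positivity)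
  have hVhalf : ∀ u ∈ Ioc 0 u₁, ‖V u - 1‖ ≤ 1 / 2 := by
    intro u hu
    have := hu₂' ⟨hu.1, hu.2.trans (min_le_left _ _)⟩
    exact (hVb u hu).trans (le_of_lt this)
  set ρ : ℝ → ℂ := fun u => V u ^ ((k : ℕ) : ℂ)⁻¹ with hρ
  have hρ3 : ∀ u ∈ Ioc 0 u₁, ρ u ^ k = V u := fun u hu => (kroot_bound hk (hVhalf u hu)).1
  have hρ1 : ∀ u ∈ Ioc 0 u₁, ‖ρ u - 1‖ ≤ 3 * (K * u ^ δ) := fun u hu =>
    (kroot_bound hk (hVhalf u hu)).2.1.trans (mul_le_mul_of_nonneg_left (hVb u hu) (by norm_num))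
  have hVne : ∀ u ∈ Ioc 0 u₁, V u ≠ 0 := fun u hu =>
    Complex.slitPlane_ne_zero (kroot_bound hk (hVhalf u hu)).2.2
  have hρne : ∀ u ∈ Ioc 0 u₁, ρ u ≠ 0 := by
    intro u hu h0
    have := hρ3 u hu
    rw [h0] at this
    exact hVne u hu (by rw [← this]; exact zero_pow (by omega))
  have hWc : ContinuousOn (fun u : ℝ => (u : ℂ) * G u / c) (Ioc 0 u₁) :=
    ((Complex.continuous_ofReal.continuousOn).mul
      (hG.mono (Ioc_subset_Ioc_right hu₁1))).div_const c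
  have hVc : ContinuousOn V (Ioc 0 u₁) := hWc.pow k
  have hρc : ContinuousOn ρ (Ioc 0 u₁) :=
    hVc.cpow_const fun u hu => (kroot_bound hk (hVhalf u hu)).2.2
  have hωc : ContinuousOn (fun u : ℝ => ((u : ℂ) * G u / c) / ρ u) (Ioc 0 u₁) :=
    hWc.div hρc hρne
  have hω3 : ∀ u ∈ Ioc 0 u₁, (((u : ℂ) * G u / c) / ρ u) ^ k = 1 := by
    intro u hu
    rw [div_pow, hρ3 u hu]
    exact div_self (hVne u hu)
  have hfin : {z : ℂ | z ^ k = 1}.Finite := by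
    refine ((Polynomial.nthRoots k (1 : ℂ)).toFinset.finite_toSet).subset fun z hz => ?_
    rw [mem_ofPred_eq] at hz
    simp [Polynomial.mem_nthRoots (by omega : 0 < k), hz]
  set ω : ℂ := ((u₁ : ℂ) * G u₁ / c) / ρ u₁ with hω
  have hconst : ∀ u ∈ Ioc 0 u₁, ((u : ℂ) * G u / c) / ρ u = ω := by
    intro u hu
    exact isPreconnected_Ioc.constant_of_mapsTo hfin.isDiscrete hωc
      (fun v hv => hω3 v hv) hu (right_mem_Ioc.mpr hu₁0)
  have hωn : ‖ω‖ = 1 := by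
    have h1 := hω3 u₁ (right_mem_Ioc.mpr hu₁0)
    rw [← hω] at h1
    have h2 : ‖ω‖ ^ k = 1 := by rw [← norm_pow, h1, norm_one]
    exact (pow_eq_one_iff_of_nonneg (norm_nonneg _) (by omega)).mp h2
  refine ⟨ω * c, 3 * (‖c‖ * K), u₁, hu₁0, hu₁1, fun u hu => ?_⟩
  have hu0 : 0 < u := hu.1
  have huc : (u : ℂ) ≠ 0 := by exact_mod_cast hu0.ne'
  have h1 := hconst u hu
  have h2 : G u = ω * c * ρ u / u := by
    have h3 := hρne u hu
    rw [div_div, div_eq_iff (mul_ne_zero hc h3)] at h1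
    rw [eq_div_iff huc]
    linear_combination h1
  have h3 : G u - ω * c / u = ω * c / u * (ρ u - 1) := by
    rw [h2]
    ring
  rw [h3, norm_mul, norm_div, norm_mul, hωn, one_mul, Complex.norm_real,
    Real.norm_of_nonneg hu0.le]
  calc ‖c‖ / u * ‖ρ u - 1‖ ≤ ‖c‖ / u * (3 * (K * u ^ δ)) :=
        mul_le_mul_of_nonneg_left (hρ1 u hu) (by positivity)
    _ = 3 * (‖c‖ * K) * (u ^ (-1 : ℝ) * u ^ δ) := by
        rw [Real.rpow_neg_one]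
        ring
    _ = 3 * (‖c‖ * K) * u ^ (-1 + δ) := by rw [← Real.rpow_add hu0]

/-- A function whose `k`-th power is `O(u ^ (-k + δ))`. -/
theorem kth_zero {k : ℕ} (hk : 1 ≤ k) {G : ℝ → ℂ} {u₀ c' δ : ℝ}
    (h : ∀ u ∈ Ioc 0 u₀, ‖G u ^ k‖ ≤ c' * u ^ (-(k : ℝ) + δ)) :
    ∃ C : ℝ, ∀ u ∈ Ioc 0 u₀, ‖G u‖ ≤ C * u ^ (-1 + δ / k) := by
  have hk0 : (k : ℝ) ≠ 0 := by
    have : (1 : ℝ) ≤ k := by exact_mod_cast hk
    linarith
  refine ⟨|c'| ^ (1 / k : ℝ), fun u hu => ?_⟩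
  have hu0 : 0 < u := hu.1
  have h1 : ‖G u‖ ^ k ≤ |c'| * u ^ (-(k : ℝ) + δ) := by
    rw [← norm_pow]
    exact (h u hu).trans (mul_le_mul_of_nonneg_right (le_abs_self _) (by positivity))
  have h2 : (|c'| ^ (1 / k : ℝ) * u ^ (-1 + δ / k)) ^ k = |c'| * u ^ (-(k : ℝ) + δ) := by
    rw [mul_pow, ← Real.rpow_natCast, ← Real.rpow_natCast, ← Real.rpow_mul (abs_nonneg _),
      ← Real.rpow_mul hu0.le, show (1 / k : ℝ) * (k : ℝ) = 1 by field_simp,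
      show (-1 + δ / k) * (k : ℝ) = -(k : ℝ) + δ by field_simp, Real.rpow_one]
  rw [← h2] at h1
  exact (pow_le_pow_iff_left₀ (norm_nonneg _) (by positivity) (by omega)).mp h1

end Vale.Agent.P026.AG
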