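import Vale.Agent.P026.AG.Abel
import Vale.Agent.P026.AG.KRoot
import Vale.Agent.P026.TP.M7
import Vale.Agent.P026.TP.M8

/-!
# P026 AG: the converse, from averages of Goldbach functions to zeros of L-functions
-/

open Finset ArithmeticFunction

namespace Vale.Agent.P026.AG

open Vale.Agent.P026.TP

theorem sum_shift {q : ℕ} {f : ℕ → ℂ} (hf : ∀ n, f (n + q) = f n) (s : ℕ) :
    ∑ c ∈ range q, f (c + s) = ∑ c ∈ range q, f c := by
  induction s with
  | zero => simp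
  | succ s ih =>
    have h1 : ∑ c ∈ range (q + 1), f (c + s) = ∑ c ∈ range q, f (c + 1 + s) + f (0 + s) :=
      Finset.sum_range_succ' _ _
    have h2 : ∑ c ∈ range (q + 1), f (c + s) = ∑ c ∈ range q, f (c + s) + f (q + s) :=
      Finset.sum_range_succ _ _
    have h3 : f (q + s) = f (0 + s) := by
      rw [add_comm q s, hf, zero_add]
    have h4 : ∑ c ∈ range q, f (c + 1 + s) = ∑ c ∈ range q, f (c + s) := by
      rw [h2, h3] at h1
      exact (add_right_cancel h1).symm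
    rw [← ih, ← h4]
    refine Finset.sum_congr rfl fun c _ => ?_
    congr 1
    ring

theorem dens_periodic (k q c : ℕ) : dens k q (c + q) = dens k q c := by
  induction k generalizing c with
  | zero =>
    have : (c + q ≡ 0 [MOD q]) ↔ (c ≡ 0 [MOD q]) := by
      simp [Nat.ModEq]
    simp only [dens, this]
  | succ k ih =>
    rw [dens, dens]
    congr 1
    refine Finset.sum_congr rfl fun b _ => ?_
    have : c + q + (q - b) = c + (q - b) + q := by ring
    rw [this, ih]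

/-- the normalised Ramanujan sum -/
noncomputable def om (q a : ℕ) : ℂ :=
  (∑ b ∈ (range q).filter (fun b => Nat.Coprime b q), e ((b : ℝ) * a / q)) / (Nat.totient q : ℂ)

theorem om_eq (q a : ℕ) : om q a = ram q a / (Nat.totient q : ℂ) := rfl

theorem e_per {q : ℕ} (hq : 1 ≤ q) (a c : ℕ) :
    e (((c + q : ℕ) : ℝ) * a / q) = e ((c : ℝ) * a / q) := by
  have hq0 : (q : ℝ) ≠ 0 := by positivity
  have : (((c + q : ℕ) : ℝ) * a / q) = (c : ℝ) * a / q + ((a : ℤ) : ℝ) := by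
    push_cast
    field_simp
  rw [this, e_add_int]

theorem e_mod' {q : ℕ} (hq : 1 ≤ q) (a n : ℕ) :
    e (((n % q : ℕ) : ℝ) * a / q) = e ((n : ℝ) * a / q) := by
  have hq0 : (q : ℝ) ≠ 0 := by positivity
  have h1 : (n : ℝ) = ((n % q : ℕ) : ℝ) + (q : ℝ) * ((n / q : ℕ) : ℝ) := by
    exact_mod_cast (Nat.mod_add_div n q).symm
  have h2 : (n : ℝ) * a / q = ((n % q : ℕ) : ℝ) * a / q + (((n / q * a : ℕ) : ℤ) : ℝ) := by
    rw [Int.cast_natCast, Nat.cast_mul]
    nth_rw 1 [h1]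
    field_simp
  rw [h2, e_add_int]

theorem dens_sum {q : ℕ} (hq : 1 ≤ q) (k a : ℕ) :
    ∑ c ∈ range q, e ((c : ℝ) * a / q) * (dens k q c : ℂ) = om q a ^ k := by
  have hφ : ((Nat.totient q : ℕ) : ℂ) ≠ 0 := by
    exact_mod_cast (Nat.totient_pos.mpr hq).ne'
  induction k with
  | zero =>
    rw [pow_zero, Finset.sum_eq_single 0]
    · simp [dens, e_zero, Nat.ModEq]
    · intro c hc hc0
      rw [Finset.mem_range] at hc
      have : ¬ c ≡ 0 [MOD q] := by
        rw [Nat.ModEq, Nat.zero_mod, Nat.mod_eq_of_lt hc]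
        exact hc0
      simp [dens, this]
    · intro h
      exact absurd (Finset.mem_range.mpr hq) h
  | succ k ih =>
    set f : ℕ → ℂ := fun c => e ((c : ℝ) * a / q) * (dens k q c : ℂ) with hf
    have hfp : ∀ n, f (n + q) = f n := by
      intro n
      simp only [hf]
      rw [e_per hq, dens_periodic]
    have hb : ∀ b ∈ (range q).filter (fun b => Nat.Coprime b q),
        ∑ c ∈ range q, e ((c : ℝ) * a / q) * (dens k q (c + (q - b)) : ℂ) =
          e ((b : ℝ) * a / q) * om q a ^ k := by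
      intro b hb
      rw [Finset.mem_filter, Finset.mem_range] at hb
      rw [← ih, ← sum_shift hfp (q - b), Finset.mul_sum]
      refine Finset.sum_congr rfl fun c _ => ?_
      simp only [hf]
      rw [← mul_assoc, ← e_add]
      congr 1
      have hq0 : (q : ℝ) ≠ 0 := by positivity
      have : (b : ℝ) * a / q + ((c + (q - b) : ℕ) : ℝ) * a / q =
          (c : ℝ) * a / q + ((a : ℤ) : ℝ) := by
        push_cast [Nat.cast_sub hb.1.le]
        field_simp
        ring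
      rw [this, e_add_int]
    calc ∑ c ∈ range q, e ((c : ℝ) * a / q) * (dens (k + 1) q c : ℂ)
        = ∑ c ∈ range q, ∑ b ∈ (range q).filter (fun b => Nat.Coprime b q),
            (e ((c : ℝ) * a / q) * (dens k q (c + (q - b)) : ℂ)) / (Nat.totient q : ℂ) := by
          refine Finset.sum_congr rfl fun c _ => ?_
          rw [dens]
          push_cast
          rw [mul_div_assoc', Finset.mul_sum, Finset.sum_div]
      _ = ∑ b ∈ (range q).filter (fun b => Nat.Coprime b q),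
            (∑ c ∈ range q, e ((c : ℝ) * a / q) * (dens k q (c + (q - b)) : ℂ)) /
              (Nat.totient q : ℂ) := by
          rw [Finset.sum_comm]
          refine Finset.sum_congr rfl fun b _ => ?_
          rw [Finset.sum_div]
      _ = ∑ b ∈ (range q).filter (fun b => Nat.Coprime b q),
            (e ((b : ℝ) * a / q) * om q a ^ k) / (Nat.totient q : ℂ) := by
          refine Finset.sum_congr rfl fun b hb' => ?_
          rw [hb b hb']
      _ = om q a ^ (k + 1) := by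
          rw [← Finset.sum_div, ← Finset.sum_mul, pow_succ']
          nth_rw 2 [om]
          ring

theorem ramR_ne_zero {q : ℕ} (hq : Squarefree q) (a : ℕ) : ramR a q ≠ 0 := by
  have h1 := (ramR_mult a).map_prod_of_subset_primeFactors q q.primeFactors subset_rfl
  rw [Nat.prod_primeFactors_of_squarefree hq] at h1
  rw [h1, Finset.prod_ne_zero_iff]
  intro p hp
  have hpp := Nat.prime_of_mem_primeFactors hp
  rw [ramR_prime a hpp]
  have : (2 : ℝ) ≤ p := by exact_mod_cast hpp.two_le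
  split_ifs
  · linarith
  · norm_num

theorem om_ne_zero {q : ℕ} (hq1 : 1 ≤ q) (hq : Squarefree q) (a : ℕ) : om q a ≠ 0 := by
  rw [om_eq, ram_eq_ramR q a hq1]
  refine div_ne_zero (by exact_mod_cast ramR_ne_zero hq a) ?_
  exact_mod_cast (Nat.totient_pos.mpr hq1).ne'

/-- the generating function on a ray -/
theorem ray_gen {k q : ℕ} (hk : 1 ≤ k) (hq : 1 ≤ q) {δ C : ℝ} (hδ0 : 0 < δ) (hδ1 : δ ≤ 1)
    (h : ∀ (c : ℕ) (x : ℝ), 1 ≤ x → |SAP k q c x - dens k q c * (x ^ k / (k.factorial : ℝ))| ≤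
      C * x ^ ((k : ℝ) - δ)) (a : ℕ) :
    ∃ C' : ℝ, 0 ≤ C' ∧ ∀ r : ℝ, 0 ≤ r → r < 1 →
      ‖FL ((r : ℂ) * e ((a : ℝ) / q)) ^ k - om q a ^ k * ((1 / (1 - r) : ℝ) : ℂ) ^ k‖ ≤
        C' * (1 / (1 - r)) ^ ((k : ℝ) - δ) := by
  choose D hD0 hD using fun c => class_gen (q := q) hk hδ0 hδ1 c (h c)
  refine ⟨∑ c ∈ range q, D c, Finset.sum_nonneg fun c _ => hD0 c, fun r hr0 hr1 => ?_⟩
  have hz : ‖(r : ℂ) * e ((a : ℝ) / q)‖ < 1 := by
    rw [norm_mul, norm_e, mul_one, Complex.norm_real, Real.norm_of_nonneg hr0]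
    exact hr1
  obtain ⟨hs, hFL⟩ := FL_pow k hz
  have hterm : ∀ n : ℕ, (G k n : ℂ) * ((r : ℂ) * e ((a : ℝ) / q)) ^ n =
      ∑ c ∈ range q, e ((c : ℝ) * a / q) * ((gc k q c n * r ^ n : ℝ) : ℂ) := by
    intro n
    rw [Finset.sum_eq_single (n % q)]
    · have h1 : n ≡ n % q [MOD q] := (Nat.mod_modEq n q).symm
      rw [gc, if_pos h1, e_mod' hq, mul_pow, ← e_nat_mul]
      have : (n : ℝ) * ((a : ℝ) / q) = (n : ℝ) * a / q := by ring
      rw [this]
      push_cast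
      ring
    · intro c hc hcn
      rw [Finset.mem_range] at hc
      have h1 : ¬ n ≡ c [MOD q] := by
        intro h2
        rw [Nat.ModEq, Nat.mod_eq_of_lt hc] at h2
        exact hcn h2.symm
      rw [gc, if_neg h1]
      simp
    · intro h1
      exact absurd (Finset.mem_range.mpr (Nat.mod_lt _ hq)) h1
  have hsum : ∀ c ∈ range q, Summable fun n : ℕ =>
      e ((c : ℝ) * a / q) * ((gc k q c n * r ^ n : ℝ) : ℂ) := fun c _ =>
    (Complex.summable_ofReal.mpr (hD c r hr0 hr1).1).mul_left _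
  rw [hFL]
  simp only [hterm]
  rw [Summable.tsum_finsetSum hsum, ← dens_sum hq k a, Finset.sum_mul, ← Finset.sum_sub_distrib,
    Finset.sum_mul]
  refine norm_sum_le_of_le _ fun c _ => ?_
  rw [tsum_mul_left, ← Complex.ofReal_tsum, mul_assoc, ← mul_sub, norm_mul, norm_e, one_mul]
  have h2 : ((∑' n : ℕ, gc k q c n * r ^ n : ℝ) : ℂ) -
      (dens k q c : ℂ) * ((1 / (1 - r) : ℝ) : ℂ) ^ k =
      ((∑' n : ℕ, gc k q c n * r ^ n - dens k q c * (1 / (1 - r)) ^ k : ℝ) : ℂ) := by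
    push_cast
    rfl
  rw [h2, Complex.norm_real, Real.norm_eq_abs]
  exact (hD c r hr0 hr1).2

theorem pow_add_one_le (k : ℕ) {x : ℝ} (hx : 1 ≤ x) :
    (x + 1) ^ k ≤ x ^ k * (1 + (2 ^ k - 1) / x) := by
  have hx0 : 0 < x := by linarith
  induction k with
  | zero => simp
  | succ k ih =>
    have h1 : (1 : ℝ) ≤ 2 ^ k := one_le_pow₀ (by norm_num)
    have h2 : (1 + 1 / x) * (1 + (2 ^ k - 1) / x) ≤ 1 + (2 ^ (k + 1) - 1) / x := by
      have h3 : (2 ^ k - 1) / x / x ≤ (2 ^ k - 1) / x := by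
        rw [div_le_iff₀ hx0]
        have : 0 ≤ (2 ^ k - 1) / x := div_nonneg (by linarith) hx0.le
        nlinarith
      have h4 : (1 + 1 / x) * (1 + (2 ^ k - 1) / x) =
          1 + (2 ^ k - 1) / x + 1 / x + (2 ^ k - 1) / x / x := by ring
      have h5 : 1 + (2 ^ (k + 1) - 1) / x =
          1 + (2 ^ k - 1) / x + 1 / x + (2 ^ k - 1) / x := by
        rw [pow_succ]; ring
      rw [h4, h5]
      linarith
    calc (x + 1) ^ (k + 1) = (x + 1) * (x + 1) ^ k := by rw [pow_succ']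
      _ ≤ (x + 1) * (x ^ k * (1 + (2 ^ k - 1) / x)) :=
          mul_le_mul_of_nonneg_left ih (by linarith)
      _ = x ^ (k + 1) * ((1 + 1 / x) * (1 + (2 ^ k - 1) / x)) := by
          field_simp
          ring
      _ ≤ _ := mul_le_mul_of_nonneg_left h2 (by positivity)

/-- the `k`-th power of the generating function near `u = 0` -/
theorem ray_u {k q : ℕ} (hk : 1 ≤ k) (hq : 1 ≤ q) {δ C : ℝ} (hδ0 : 0 < δ) (hδ1 : δ ≤ 1)
    (h : ∀ (c : ℕ) (x : ℝ), 1 ≤ x → |SAP k q c x - dens k q c * (x ^ k / (k.factorial : ℝ))| ≤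
      C * x ^ ((k : ℝ) - δ)) (a : ℕ) :
    ∃ C' : ℝ, ∀ u ∈ Set.Ioc (0 : ℝ) 1,
      ‖FL ((Real.exp (-u) : ℂ) * e ((a : ℝ) / q)) ^ k - om q a ^ k / (u : ℂ) ^ k‖ ≤
        C' * u ^ (-(k : ℝ) + δ) := by
  obtain ⟨D, hD0, hD⟩ := ray_gen hk hq hδ0 hδ1 h a
  refine ⟨D * 2 ^ (k : ℝ) + ‖om q a ^ k‖ * 2 ^ k, fun u hu => ?_⟩
  have hk1 : (1 : ℝ) ≤ k := by exact_mod_cast hk
  have hu0 : 0 < u := hu.1
  have hu1 : u ≤ 1 := hu.2
  obtain ⟨hT1, hT2, hT3, hd⟩ := T_facts hu0 hu1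
  set r : ℝ := Real.exp (-u) with hr
  have hr0 : 0 ≤ r := (Real.exp_pos _).le
  have hr1 : r < 1 := by linarith
  have h1 := hD r hr0 hr1
  set T : ℝ := 1 / (1 - r) with hTdef
  have hT0 : 0 < T := by positivity
  have h2 : T ^ ((k : ℝ) - δ) ≤ 2 ^ (k : ℝ) * u ^ (-(k : ℝ) + δ) := by
    calc T ^ ((k : ℝ) - δ) ≤ (2 / u) ^ ((k : ℝ) - δ) :=
          Real.rpow_le_rpow hT0.le hT3 (by linarith)
      _ = 2 ^ ((k : ℝ) - δ) * u ^ (-((k : ℝ) - δ)) := by
        rw [Real.div_rpow (by norm_num) hu0.le, Real.rpow_neg hu0.le, div_eq_mul_inv]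
      _ = 2 ^ ((k : ℝ) - δ) * u ^ (-(k : ℝ) + δ) := by
        congr 2; ring
      _ ≤ 2 ^ (k : ℝ) * u ^ (-(k : ℝ) + δ) := by
        refine mul_le_mul_of_nonneg_right ?_ (by positivity)
        exact Real.rpow_le_rpow_of_exponent_le (by norm_num) (by linarith)
  have h3 : |T ^ k - (1 / u) ^ k| ≤ 2 ^ k * u ^ (-(k : ℝ) + δ) := by
    have e1 : (1 / u) ^ k ≤ T ^ k := pow_le_pow_left₀ (by positivity) hT1 k
    rw [abs_of_nonneg (by linarith)]
    have hx : (1 : ℝ) ≤ 1 / u := by rw [le_div_iff₀ hu0]; linarith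
    have e2 : T ^ k ≤ (1 / u) ^ k * (1 + (2 ^ k - 1) / (1 / u)) :=
      (pow_le_pow_left₀ hT0.le hT2 k).trans (pow_add_one_le k hx)
    have e3 : (1 / u) ^ k * (1 + (2 ^ k - 1) / (1 / u)) - (1 / u) ^ k =
        (2 ^ k - 1) * ((1 / u) ^ k * u) := by
      rw [div_div_eq_mul_div, div_one]; ring
    have e4 : (1 / u) ^ k * u = u ^ (-(k : ℝ) + 1) := by
      rw [Real.rpow_add hu0, Real.rpow_one, Real.rpow_neg hu0.le, Real.rpow_natCast, one_div,
        inv_pow]
    have e5 : u ^ (-(k : ℝ) + 1) ≤ u ^ (-(k : ℝ) + δ) :=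
      Real.rpow_le_rpow_of_exponent_ge hu0 hu1 (by linarith)
    have e6 : (0 : ℝ) ≤ 2 ^ k - 1 := by
      have : (1 : ℝ) ≤ 2 ^ k := one_le_pow₀ (by norm_num)
      linarith
    have e7 : 0 ≤ u ^ (-(k : ℝ) + δ) := by positivity
    calc T ^ k - (1 / u) ^ k ≤ (2 ^ k - 1) * ((1 / u) ^ k * u) := by linarith
      _ ≤ (2 ^ k - 1) * u ^ (-(k : ℝ) + δ) := by
        rw [e4]; exact mul_le_mul_of_nonneg_left e5 e6
      _ ≤ 2 ^ k * u ^ (-(k : ℝ) + δ) := by nlinarith
  have h4 : FL ((r : ℂ) * e ((a : ℝ) / q)) ^ k - om q a ^ k / (u : ℂ) ^ k =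
      (FL ((r : ℂ) * e ((a : ℝ) / q)) ^ k - om q a ^ k * ((T : ℝ) : ℂ) ^ k) +
      om q a ^ k * ((T ^ k - (1 / u) ^ k : ℝ) : ℂ) := by
    push_cast
    rw [one_div_pow]
    ring
  rw [h4]
  refine (norm_add_le _ _).trans ?_
  rw [norm_mul, Complex.norm_real, Real.norm_eq_abs, add_mul]
  refine add_le_add ?_ ?_
  · refine h1.trans ?_
    rw [mul_assoc]
    exact mul_le_mul_of_nonneg_left h2 hD0
  · rw [mul_assoc]
    exact mul_le_mul_of_nonneg_left h3 (norm_nonneg _)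

theorem conv2Stmt : Conv2Stmt := by
  intro k q _ δ C hk hδ0 hδ1 h
  have hq : 1 ≤ q := NeZero.one_le
  have hk1 : (1 : ℝ) ≤ k := by exact_mod_cast hk
  have hk0 : (0 : ℝ) < k := by linarith
  have hδk : δ / k ≤ δ := div_le_self hδ0.le hk1
  have hcont : ∀ a : ℕ, ContinuousOn (fun u : ℝ =>
      FL ((Real.exp (-u) : ℂ) * e ((a : ℝ) / q))) (Set.Ioc 0 1) := fun a =>
    (continuousOn_ray _).mono fun u hu => hu.1
  have hne : ∀ a : ℕ, om q a ≠ 0 → RaySave ((a : ℝ) / q) δ := by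
    intro a ha
    obtain ⟨C', hC'⟩ := ray_u hk hq hδ0 hδ1 h a
    obtain ⟨κ, C'', u₁, hu₁, _, hk'⟩ := kth_root hk one_pos hδ0 ha (hcont a) hC'
    exact ⟨κ, C'', u₁, hu₁, fun u hu0 hu => hk' u ⟨hu0, hu⟩⟩
  have hze : ∀ a : ℕ, om q a = 0 → RaySave ((a : ℝ) / q) (δ / k) := by
    intro a ha
    obtain ⟨C', hC'⟩ := ray_u hk hq hδ0 hδ1 h a
    obtain ⟨C'', hC''⟩ := kth_zero hk (G := fun u : ℝ =>
      FL ((Real.exp (-u) : ℂ) * e ((a : ℝ) / q))) (u₀ := 1) (c' := C') (δ := δ) (fun u hu => by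
        have := hC' u hu
        rwa [ha, zero_pow (by omega), zero_div, sub_zero] at this)
    exact ⟨0, C'', 1, one_pos, fun u hu0 hu => by simpa using hC'' u ⟨hu0, hu⟩⟩
  constructor
  · intro χ s hs0 hs1 hL
    have hs1' : s ≠ 1 := by
      intro h
      rw [h] at hs1
      simp at hs1
    by_contra hcon
    push Not at hcon
    refine zeros_of_rays (η := δ / k) (by positivity) (by linarith) ?_ χ hs1' hcon hL
    intro b
    by_cases hb : om q b = 0
    · exact hze b hb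
    · exact (hne b hb).mono hδk
  · intro hsq χ s hs0 hs1 hL
    have hs1' : s ≠ 1 := by
      intro h
      rw [h] at hs1
      simp at hs1
    by_contra hcon
    push Not at hcon
    exact zeros_of_rays (η := δ) hδ0 hδ1 (fun b => hne b (om_ne_zero hq hsq b)) χ hs1' hcon hL

end Vale.Agent.P026.AG
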