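import Mathlib

/-!
# P026: averages of Goldbach functions and zeros of L-functions
-/

open Finset ArithmeticFunction

namespace Vale.Agent.P026.AG

/-- The weighted number of representations of `n` as a sum of `k` primes and prime powers: the
`k`-fold additive convolution of the von Mangoldt function, `∑_{m₁ + … + m_k = n} ∏ Λ(m_i)`. -/
noncomputable def G : ℕ → ℕ → ℝ
  | 0, n => if n = 0 then 1 else 0
  | k + 1, n => ∑ m ∈ range (n + 1), vonMangoldt m * G k (n - m)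

/-- The summatory function `∑_{n ≤ x} G_k(n) = ∑_{m₁ + … + m_k ≤ x} ∏ Λ(m_i)`. -/
noncomputable def S (k : ℕ) (x : ℝ) : ℝ := ∑ n ∈ range (⌊x⌋₊ + 1), G k n

/-- The summatory function of `G_k(n)` over `n ≡ c (mod q)`. -/
noncomputable def SAP (k q c : ℕ) (x : ℝ) : ℝ :=
  ∑ n ∈ (range (⌊x⌋₊ + 1)).filter (fun n => n ≡ c [MOD q]), G k n

/-- The proportion of the tuples `(b₁, …, b_k)` of reduced residues modulo `q` whose sum is
congruent to `c`. -/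
noncomputable def dens : ℕ → ℕ → ℕ → ℝ
  | 0, q, c => if c ≡ 0 [MOD q] then 1 else 0
  | k + 1, q, c => (∑ b ∈ (range q).filter (fun b => Nat.Coprime b q), dens k q (c + (q - b))) /
      (Nat.totient q : ℝ)

/-- All zeros `0 < Re ρ < 1` of the Riemann zeta function have real part at most `θ`. -/
def ZetaZeros (θ : ℝ) : Prop :=
  ∀ s : ℂ, 0 < s.re → s.re < 1 → riemannZeta s = 0 → s.re ≤ θ

/-- All zeros `0 < Re ρ < 1` of the Dirichlet `L`-functions modulo `q` have real part at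
most `θ`. -/
def LZeros (q : ℕ) [NeZero q] (θ : ℝ) : Prop :=
  ∀ (χ : DirichletCharacter ℂ q) (s : ℂ), 0 < s.re → s.re < 1 → χ.LFunction s = 0 → s.re ≤ θ

/-- Interface [AG1-FWD]: exact exponent in the average of `G_k` from the zeros of zeta. -/
def Fwd1Stmt : Prop := ∀ θ : ℝ, 1 / 2 ≤ θ → θ < 1 → ZetaZeros θ → ∀ k : ℕ, 1 ≤ k → ∀ ε : ℝ, 0 < ε →
  ∃ C : ℝ, ∀ x : ℝ, 1 ≤ x → |S k x - x ^ k / (k.factorial : ℝ)| ≤ C * x ^ ((k : ℝ) - 1 + θ + ε)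

/-- Interface [AG2-FWD]: the exact exponent for residue classes modulo `q`. -/
def Fwd2Stmt : Prop := ∀ (q : ℕ) [NeZero q] (θ : ℝ), 1 / 2 ≤ θ → θ < 1 → LZeros q θ →
  ∀ k : ℕ, 1 ≤ k → ∀ ε : ℝ, 0 < ε → ∃ C : ℝ, ∀ (c : ℕ) (x : ℝ), 1 ≤ x →
    |SAP k q c x - dens k q c * (x ^ k / (k.factorial : ℝ))| ≤ C * x ^ ((k : ℝ) - 1 + θ + ε)

/-- Interface [AG1-CONV]. -/
def Conv1Stmt : Prop := ∀ (k : ℕ) (δ C : ℝ), 1 ≤ k → 0 < δ → δ ≤ 1 →
  (∀ x : ℝ, 1 ≤ x → |S k x - x ^ k / (k.factorial : ℝ)| ≤ C * x ^ ((k : ℝ) - δ)) →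
  ZetaZeros (1 - δ)

/-- Interface [AG2-CONV]. -/
def Conv2Stmt : Prop := ∀ (k q : ℕ) [NeZero q] (δ C : ℝ), 1 ≤ k → 0 < δ → δ ≤ 1 →
  (∀ (c : ℕ) (x : ℝ), 1 ≤ x →
    |SAP k q c x - dens k q c * (x ^ k / (k.factorial : ℝ))| ≤ C * x ^ ((k : ℝ) - δ)) →
  LZeros q (1 - δ / k) ∧ (Squarefree q → LZeros q (1 - δ))

end Vale.Agent.P026.AG
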