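import Vale.Agent.P026.TP.Shift

/-!
# P026 AG: exact exponents from a contour shift and a difference with step one
-/

open Finset Real MeasureTheory Filter Topology

namespace Vale.Agent.P026.AG

open Vale.Agent.P026.TP.Rz

/-- The identity behind `riesz_shift`, with integrability on the shifted line. -/
theorem riesz_identity (a : ℕ → ℂ) (c : ℂ) (F : ℂ → ℂ) {σ₁ σ₂ B : ℝ} (h0 : 0 < σ₁) (h1 : σ₁ < 1)
    (h2 : 1 < σ₂) (ha : LSeriesSummable a σ₂)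
    (hF : ∀ t : ℝ, LSeries a (lin σ₂ t) = F (lin σ₂ t) + c / (lin σ₂ t - 1))
    (hd : ∀ s : ℂ, σ₁ ≤ s.re → s.re ≤ σ₂ → DifferentiableAt ℂ F s)
    (hb : ∀ s : ℂ, σ₁ ≤ s.re → s.re ≤ σ₂ → ‖F s‖ ≤ B * (1 + |s.im|) ^ (1 / 2 : ℝ))
    (x : ℝ) (hx : 1 ≤ x) :
    Integrable (fun y : ℝ => (x : ℂ) ^ ((σ₁ : ℂ) + y * Complex.I) *
      (F (σ₁ + y * Complex.I) / ((σ₁ + y * Complex.I) * (σ₁ + y * Complex.I + 1)))) ∧
    ∑ n ∈ Icc 1 ⌊x⌋₊, a n * (1 - (n : ℂ) / x) - c * (x / 2 - 1 + 1 / (2 * x)) =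
      (((2 * π)⁻¹ : ℝ) : ℂ) * ∫ y : ℝ, (x : ℂ) ^ ((σ₁ : ℂ) + y * Complex.I) *
      (F (σ₁ + y * Complex.I) / ((σ₁ + y * Complex.I) * (σ₁ + y * Complex.I + 1))) := by
  have hx0 : 0 < x := by linarith only [hx]
  have hxc : (x : ℂ) ≠ 0 := by exact_mod_cast hx0.ne'
  have hB : 0 ≤ B := by
    have := (norm_nonneg _).trans (hb (σ₁ : ℂ) (by simp) (by simp; linarith))
    simpa using this
  set H : ℂ → ℂ := fun s => (x : ℂ) ^ s * (F s / (s * (s + 1))) with hH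
  have hne : ∀ s : ℂ, σ₁ ≤ s.re → s * (s + 1) ≠ 0 := by
    intro s hs
    have e0 := den_lower h0 h1.le hs
    intro h
    rw [h, norm_zero] at e0
    have e1 : 0 < σ₁ / 2 * (1 + |s.im|) ^ 2 := by positivity
    linarith
  have hQd : ∀ s : ℂ, σ₁ ≤ s.re → s.re ≤ σ₂ →
      DifferentiableAt ℂ (fun s => F s / (s * (s + 1))) s := by
    intro s hs1 hs2
    exact DifferentiableAt.fun_div (hd s hs1 hs2)
      (differentiableAt_id.mul (differentiableAt_id.add_const 1)) (hne s hs1)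
  have hHd : ∀ s : ℂ, σ₁ ≤ s.re → s.re ≤ σ₂ → DifferentiableAt ℂ H s := by
    intro s hs1 hs2
    exact DifferentiableAt.mul (differentiableAt_id.const_cpow (Or.inl hxc)) (hQd s hs1 hs2)
  have hQb : ∀ s : ℂ, σ₁ ≤ s.re → s.re ≤ σ₂ →
      ‖F s / (s * (s + 1))‖ ≤ 2 / σ₁ * B * (1 + |s.im|) ^ (-(3 / 2) : ℝ) := by
    intro s hs1 hs2
    have e1 := den_lower h0 h1.le hs1
    have e2 : 0 < σ₁ / 2 * (1 + |s.im|) ^ 2 := by positivity
    rw [norm_div]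
    calc ‖F s‖ / ‖s * (s + 1)‖ ≤ (B * (1 + |s.im|) ^ (1 / 2 : ℝ)) / (σ₁ / 2 * (1 + |s.im|) ^ 2) :=
          div_le_div₀ (by positivity) (hb s hs1 hs2) e2 e1
      _ = 2 / σ₁ * B * (1 + |s.im|) ^ (-(3 / 2) : ℝ) := by
          have e3 : (1 + |s.im|) ^ (-(3 / 2) : ℝ) =
              (1 + |s.im|) ^ (1 / 2 : ℝ) / (1 + |s.im|) ^ 2 := by
            rw [← Real.rpow_natCast, ← Real.rpow_sub (by positivity)]
            norm_num
          rw [e3]
          field_simp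
  have hHb : ∀ s : ℂ, σ₁ ≤ s.re → s.re ≤ σ₂ →
      ‖H s‖ ≤ x ^ s.re * (2 / σ₁ * B * (1 + |s.im|) ^ (-(3 / 2) : ℝ)) := by
    intro s hs1 hs2
    rw [hH]
    simp only
    rw [norm_mul, Complex.norm_cpow_eq_rpow_re_of_pos hx0]
    exact mul_le_mul_of_nonneg_left (hQb s hs1 hs2) (Real.rpow_nonneg hx0.le _)
  have hHb' : ∀ s : ℂ, σ₁ ≤ s.re → s.re ≤ σ₂ →
      ‖H s‖ ≤ x ^ σ₂ * (2 / σ₁ * B) * (1 + |s.im|) ^ (-(3 / 2) : ℝ) := by
    intro s hs1 hs2
    refine (hHb s hs1 hs2).trans ?_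
    rw [mul_assoc (x ^ σ₂)]
    exact mul_le_mul_of_nonneg_right (Real.rpow_le_rpow_of_exponent_le hx hs2) (by positivity)
  -- the identity on the line `σ₂`
  have hGi : Integrable (fun t : ℝ => F (lin σ₂ t) / (lin σ₂ t * (lin σ₂ t + 1))) := by
    have hcont : Continuous (fun t : ℝ => F (lin σ₂ t) / (lin σ₂ t * (lin σ₂ t + 1))) := by
      rw [continuous_iff_continuousAt]
      intro t
      have h3 : ContinuousAt (fun s => F s / (s * (s + 1))) (lin σ₂ t) :=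
        (hQd _ (by rw [rz_lin_re]; linarith) (by rw [rz_lin_re])).continuousAt
      exact ContinuousAt.comp (f := fun t : ℝ => lin σ₂ t) h3 (rz_lin_continuous σ₂).continuousAt
    refine Integrable.mono' (g := fun t : ℝ => (2 / σ₁ * B) * (1 + |t|) ^ (-(3 / 2) : ℝ))
      (K0_int.const_mul _) hcont.aestronglyMeasurable (Eventually.of_forall fun t => ?_)
    refine (hQb (lin σ₂ t) (by rw [rz_lin_re]; linarith) (by rw [rz_lin_re])).trans
      (mul_le_mul_of_nonneg_left ?_ (by positivity))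
    rw [rz_lin_im, abs_mul, abs_of_pos (by positivity : (0 : ℝ) < 2 * π)]
    refine Real.rpow_le_rpow_of_nonpos (by positivity) ?_ (by norm_num)
    have : (1 : ℝ) ≤ 2 * π := by linarith [Real.pi_gt_three]
    nlinarith [abs_nonneg t]
  have hA : ∫ t : ℝ, H (lin σ₂ t) =
      ∑ n ∈ Icc 1 ⌊x⌋₊, a n * (1 - (n : ℂ) / x) - c * (x / 2 - 1 + 1 / (2 * x)) := by
    refine riesz_line a c _ h2 ha hGi (fun t => ?_) x hx
    rw [hF t, add_div]
  constructor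
  · have hcl : Continuous (fun y : ℝ => H (σ₁ + y * Complex.I)) := by
      rw [continuous_iff_continuousAt]
      intro y
      have h3 : ContinuousAt H ((σ₁ : ℂ) + y * Complex.I) :=
        (hHd _ (by simp) (by simp; linarith)).continuousAt
      exact ContinuousAt.comp (f := fun y : ℝ => (σ₁ : ℂ) + y * Complex.I) (by simpa using h3)
        (by fun_prop)
    refine vint (H := H) (M := x ^ σ₂ * (2 / σ₁ * B)) hcl fun y => ?_
    simpa using hHb' ((σ₁ : ℂ) + y * Complex.I) (by simp) (by simp; linarith)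
  · rw [← hA, lin_integral, ← shift (H := H) (by linarith : σ₁ ≤ σ₂) hHd hHb']

/-- the difference of the kernel -/
theorem kernel_diff {x σ lam : ℝ} (hx : 1 ≤ x) (hσ : 0 < σ) (hl0 : 0 ≤ lam) (hl1 : lam ≤ 1)
    (s : ℂ) (hs : s.re = σ) :
    ‖((x + 1 : ℝ) : ℂ) ^ (s + 1) - (x : ℂ) ^ (s + 1)‖ ≤
      2 * ‖s + 1‖ ^ (1 - lam) * (x + 1) ^ (σ + lam) := by
  have hx0 : 0 < x := by linarith
  have hx1 : 0 < x + 1 := by linarith
  have hs1 : (s + 1).re = σ + 1 := by simp [hs]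
  have hs1ne : s + 1 ≠ 0 := by
    intro h
    rw [h] at hs1
    simp at hs1
    linarith
  set P : ℂ := ((x + 1 : ℝ) : ℂ) ^ (s + 1) - (x : ℂ) ^ (s + 1) with hP
  have hb1 : ‖P‖ ≤ ‖s + 1‖ * (x + 1) ^ σ := by
    have hder : ∀ y ∈ Set.Icc x (x + 1), HasDerivWithinAt (fun y : ℝ => (y : ℂ) ^ (s + 1))
        ((s + 1) * (y : ℂ) ^ s) (Set.Icc x (x + 1)) y := by
      intro y hy
      have hy0 : 0 < y := by linarith [hy.1]
      have := hasDerivAt_ofReal_cpow_const (x := y) hy0.ne' (r := s + 1) hs1ne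
      rw [add_sub_cancel_right] at this
      exact this.hasDerivWithinAt
    have hbd : ∀ y ∈ Set.Icc x (x + 1), ‖(s + 1) * (y : ℂ) ^ s‖ ≤ ‖s + 1‖ * (x + 1) ^ σ := by
      intro y hy
      have hy0 : 0 < y := by linarith [hy.1]
      rw [norm_mul, Complex.norm_cpow_eq_rpow_re_of_pos hy0, hs]
      exact mul_le_mul_of_nonneg_left (Real.rpow_le_rpow hy0.le hy.2 hσ.le) (norm_nonneg _)
    have := (convex_Icc x (x + 1)).norm_image_sub_le_of_norm_hasDerivWithin_le hder hbd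
      (Set.left_mem_Icc.mpr (by linarith)) (Set.right_mem_Icc.mpr (by linarith))
    have e2 : ‖(x + 1) - x‖ = 1 := by rw [add_sub_cancel_left, norm_one]
    rw [e2, mul_one] at this
    exact this
  have hb2 : ‖P‖ ≤ 2 * (x + 1) ^ (σ + 1) := by
    refine (norm_sub_le _ _).trans ?_
    rw [Complex.norm_cpow_eq_rpow_re_of_pos hx1, Complex.norm_cpow_eq_rpow_re_of_pos hx0, hs1]
    have : x ^ (σ + 1) ≤ (x + 1) ^ (σ + 1) := Real.rpow_le_rpow hx0.le (by linarith) (by linarith)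
    linarith
  have hsn : 0 < ‖s + 1‖ := norm_pos_iff.mpr hs1ne
  have h3 : ‖P‖ = ‖P‖ ^ (1 - lam) * ‖P‖ ^ lam := by
    rcases eq_or_lt_of_le (norm_nonneg P) with h | h
    · rw [← h]
      rcases eq_or_ne lam 0 with h4 | h4
      · rw [h4]; norm_num
      · rw [Real.zero_rpow h4, mul_zero]
    · rw [← Real.rpow_add h]; simp
  rw [h3]
  have h4 : ‖P‖ ^ (1 - lam) ≤ (‖s + 1‖ * (x + 1) ^ σ) ^ (1 - lam) :=
    Real.rpow_le_rpow (norm_nonneg _) hb1 (by linarith)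
  have h5 : ‖P‖ ^ lam ≤ (2 * (x + 1) ^ (σ + 1)) ^ lam :=
    Real.rpow_le_rpow (norm_nonneg _) hb2 hl0
  have h6 : (‖s + 1‖ * (x + 1) ^ σ) ^ (1 - lam) * (2 * (x + 1) ^ (σ + 1)) ^ lam =
      2 ^ lam * ‖s + 1‖ ^ (1 - lam) * (x + 1) ^ (σ + lam) := by
    rw [Real.mul_rpow hsn.le (by positivity), Real.mul_rpow (by norm_num) (by positivity),
      ← Real.rpow_mul hx1.le, ← Real.rpow_mul hx1.le]
    have : (x + 1) ^ (σ + lam) = (x + 1) ^ (σ * (1 - lam)) * (x + 1) ^ ((σ + 1) * lam) := by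
      rw [← Real.rpow_add hx1]; congr 1; ring
    rw [this]
    ring
  have h7 : (2 : ℝ) ^ lam ≤ 2 := by
    calc (2 : ℝ) ^ lam ≤ 2 ^ (1 : ℝ) := Real.rpow_le_rpow_of_exponent_le (by norm_num) hl1
      _ = 2 := Real.rpow_one 2
  calc ‖P‖ ^ (1 - lam) * ‖P‖ ^ lam
      ≤ (‖s + 1‖ * (x + 1) ^ σ) ^ (1 - lam) * (2 * (x + 1) ^ (σ + 1)) ^ lam :=
        mul_le_mul h4 h5 (by positivity) (by positivity)
    _ = 2 ^ lam * ‖s + 1‖ ^ (1 - lam) * (x + 1) ^ (σ + lam) := h6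
    _ ≤ _ := by
        refine mul_le_mul_of_nonneg_right ?_ (by positivity)
        exact mul_le_mul_of_nonneg_right h7 (by positivity)

end Vale.Agent.P026.AG
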