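import Vale.Agent.P026.AG.Exact

/-!
# P026 AG: exact exponents, continued
-/

open Finset Real MeasureTheory Filter Topology

namespace Vale.Agent.P026.AG

open Vale.Agent.P026.TP.Rz

theorem norm_s_ge {σ : ℝ} (h0 : 0 < σ) (h1 : σ ≤ 1) {s : ℂ} (hs : s.re = σ) :
    σ / 2 * (1 + |s.im|) ≤ ‖s‖ ∧ (1 + |s.im|) / 2 ≤ ‖s + 1‖ := by
  have e1 := Complex.abs_re_le_norm s
  have e2 := Complex.abs_im_le_norm s
  have e3 := Complex.abs_re_le_norm (s + 1)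
  have e4 := Complex.abs_im_le_norm (s + 1)
  simp only [Complex.add_re, Complex.one_re, Complex.add_im, Complex.one_im, add_zero, hs] at e1 e2 e3 e4
  rw [abs_of_pos h0] at e1
  rw [abs_of_pos (by linarith : 0 < σ + 1)] at e3
  have h2 := abs_nonneg s.im
  constructor
  · nlinarith
  · linarith

/-- sums of coefficients with the exact exponent -/
theorem exact_power (a : ℕ → ℂ) (c : ℂ) (F : ℂ → ℂ) {σ B lam : ℝ} (h0 : 1 / 2 ≤ σ) (h1 : σ < 1)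
    (hl0 : 0 < lam) (hl1 : lam ≤ 1 / 2) (ha : ∀ n : ℕ, 1 ≤ n → ‖a n‖ ≤ 1 + Real.log n)
    (has : LSeriesSummable a (2 : ℝ))
    (hF : ∀ s : ℂ, 1 < s.re → LSeries a s = F s + c / (s - 1))
    (hd : ∀ s : ℂ, σ ≤ s.re → s.re ≤ 2 → DifferentiableAt ℂ F s)
    (hb : ∀ s : ℂ, σ ≤ s.re → s.re ≤ 2 → ‖F s‖ ≤ B * (1 + |s.im|) ^ lam) :
    ∃ C : ℝ, 0 ≤ C ∧ ∀ x : ℝ, 1 ≤ x → ‖∑ n ∈ Icc 1 ⌊x⌋₊, a n - c * x‖ ≤ C * x ^ (σ + 2 * lam) := by
  have hσ0 : 0 < σ := by linarith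
  have hB : 0 ≤ B := by
    have := (norm_nonneg _).trans (hb (σ : ℂ) (by simp) (by simp; linarith))
    simpa using this
  have hb' : ∀ s : ℂ, σ ≤ s.re → s.re ≤ 2 → ‖F s‖ ≤ B * (1 + |s.im|) ^ (1 / 2 : ℝ) := by
    intro s hs1 hs2
    refine (hb s hs1 hs2).trans (mul_le_mul_of_nonneg_left ?_ hB)
    exact Real.rpow_le_rpow_of_exponent_le (by linarith [abs_nonneg s.im]) hl1
  have hid := fun x hx => riesz_identity a c F hσ0 h1 (by norm_num : (1 : ℝ) < 2) has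
    (fun t => hF _ (by rw [rz_lin_re]; norm_num)) hd hb' x hx
  -- the integral of the kernel
  have hKi : Integrable (fun y : ℝ => (1 + |y|) ^ (-(1 + lam))) := by
    simpa [Real.norm_eq_abs] using
      (integrable_one_add_norm (by simp; linarith : (Module.finrank ℝ ℝ : ℝ) < 1 + lam) :
        Integrable (fun y : ℝ => (1 + ‖y‖) ^ (-(1 + lam))))
  set K : ℝ := ∫ y : ℝ, (1 + |y|) ^ (-(1 + lam)) with hK
  have hK0 : 0 ≤ K := integral_nonneg fun y => by positivity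
  refine ⟨(8 * B / σ) * 2 ^ (2 : ℝ) * K + ‖c‖ + 7, by positivity, fun x hx => ?_⟩
  have hx0 : 0 < x := by linarith
  have hx1 : 1 ≤ x + 1 := by linarith
  have hxc : (x : ℂ) ≠ 0 := by exact_mod_cast hx0.ne'
  have hxc1 : (x : ℂ) + 1 ≠ 0 := by
    have : ((x + 1 : ℝ) : ℂ) ≠ 0 := by exact_mod_cast (by linarith : x + 1 ≠ 0)
    push_cast at this
    exact this
  obtain ⟨i1, e1⟩ := hid x hx
  obtain ⟨i2, e2⟩ := hid (x + 1) hx1
  set N : ℕ := ⌊x⌋₊ with hN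
  have hN1 : ⌊x + 1⌋₊ = N + 1 := Nat.floor_add_one hx0.le
  have hNx : (N : ℝ) ≤ x := Nat.floor_le hx0.le
  have hxN : x < N + 1 := Nat.lt_floor_add_one x
  -- the difference of the two Riesz means
  have hdiff : ((x + 1 : ℝ) : ℂ) * (∑ n ∈ Icc 1 (N + 1), a n * (1 - (n : ℂ) / ((x + 1 : ℝ) : ℂ)) -
        c * (((x + 1 : ℝ) : ℂ) / 2 - 1 + 1 / (2 * ((x + 1 : ℝ) : ℂ)))) -
      (x : ℂ) * (∑ n ∈ Icc 1 N, a n * (1 - (n : ℂ) / x) - c * (x / 2 - 1 + 1 / (2 * x))) =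
      (∑ n ∈ Icc 1 N, a n - c * x) + (a (N + 1) * ((x - N : ℝ) : ℂ) + c / 2) := by
    rw [Finset.sum_Icc_succ_top (by omega)]
    rw [mul_sub, mul_add, Finset.mul_sum, mul_sub (x : ℂ), Finset.mul_sum]
    have s1 : ∀ n : ℕ, ((x + 1 : ℝ) : ℂ) * (a n * (1 - (n : ℂ) / ((x + 1 : ℝ) : ℂ))) =
        a n * (x + 1 - n) := by
      intro n
      push_cast
      field_simp
    have s2 : ∀ n : ℕ, (x : ℂ) * (a n * (1 - (n : ℂ) / x)) = a n * (x - n) := by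
      intro n
      field_simp
    simp only [s1, s2]
    have s3 : ∑ n ∈ Icc 1 N, a n * ((x : ℂ) + 1 - n) =
        ∑ n ∈ Icc 1 N, a n * ((x : ℂ) - n) + ∑ n ∈ Icc 1 N, a n := by
      rw [← Finset.sum_add_distrib]
      refine Finset.sum_congr rfl fun n _ => ?_
      ring
    rw [s3]
    push_cast
    field_simp
    ring
  -- the integral of the difference
  set J : ℝ → ℂ := fun y => ((x + 1 : ℝ) : ℂ) * (((x + 1 : ℝ) : ℂ) ^ ((σ : ℂ) + y * Complex.I) *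
      (F (σ + y * Complex.I) / ((σ + y * Complex.I) * (σ + y * Complex.I + 1)))) -
      (x : ℂ) * ((x : ℂ) ^ ((σ : ℂ) + y * Complex.I) *
      (F (σ + y * Complex.I) / ((σ + y * Complex.I) * (σ + y * Complex.I + 1)))) with hJ
  have hJint : ∫ y : ℝ, J y =
      ((x + 1 : ℝ) : ℂ) * (∫ y : ℝ, ((x + 1 : ℝ) : ℂ) ^ ((σ : ℂ) + y * Complex.I) *
        (F (σ + y * Complex.I) / ((σ + y * Complex.I) * (σ + y * Complex.I + 1)))) -
      (x : ℂ) * (∫ y : ℝ, (x : ℂ) ^ ((σ : ℂ) + y * Complex.I) *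
        (F (σ + y * Complex.I) / ((σ + y * Complex.I) * (σ + y * Complex.I + 1)))) := by
    rw [hJ, integral_sub (i2.const_mul _) (i1.const_mul _), integral_const_mul,
      integral_const_mul]
  have hJb : ∀ y : ℝ, ‖J y‖ ≤ (8 * B / σ) * (x + 1) ^ (σ + 2 * lam) *
      (1 + |y|) ^ (-(1 + lam)) := by
    intro y
    set s : ℂ := (σ : ℂ) + y * Complex.I with hs
    have hsre : s.re = σ := by simp [hs]
    have hsim : s.im = y := by simp [hs]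
    have hJ' : J y = (((x + 1 : ℝ) : ℂ) ^ (s + 1) - (x : ℂ) ^ (s + 1)) *
        (F s / (s * (s + 1))) := by
      have hxc1' : ((x + 1 : ℝ) : ℂ) ≠ 0 := by exact_mod_cast (by linarith : x + 1 ≠ 0)
      rw [Complex.cpow_add _ _ hxc1', Complex.cpow_add _ _ hxc, Complex.cpow_one, Complex.cpow_one]
      simp only [hJ, ← hs]
      ring
    have k1 := kernel_diff (lam := 2 * lam) hx hσ0 (by linarith) (by linarith) s hsre
    have k2 := hb s hsre.ge (by rw [hsre]; linarith)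
    obtain ⟨n1, n2⟩ := norm_s_ge hσ0 h1.le hsre
    rw [hsim] at k2 n1 n2
    set Y : ℝ := 1 + |y| with hY
    have hY1 : 1 ≤ Y := by rw [hY]; linarith [abs_nonneg y]
    have hY0 : 0 < Y := by linarith
    have hsn : 0 < ‖s‖ := lt_of_lt_of_le (by positivity) n1
    have hsn1 : 0 < ‖s + 1‖ := lt_of_lt_of_le (by positivity) n2
    rw [hJ', norm_mul, norm_div, norm_mul]
    have k3 : ‖s + 1‖ ^ (1 - 2 * lam) / ‖s + 1‖ = ‖s + 1‖ ^ (-(2 * lam)) := by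
      rw [div_eq_iff hsn1.ne']
      nth_rw 3 [← Real.rpow_one ‖s + 1‖]
      rw [← Real.rpow_add hsn1]
      congr 1; ring
    have k4 : ‖s + 1‖ ^ (-(2 * lam)) ≤ 2 * Y ^ (-(2 * lam)) := by
      calc ‖s + 1‖ ^ (-(2 * lam)) ≤ (Y / 2) ^ (-(2 * lam)) :=
            Real.rpow_le_rpow_of_nonpos (by positivity) n2 (by linarith)
        _ = 2 ^ (2 * lam) * Y ^ (-(2 * lam)) := by
            rw [Real.div_rpow hY0.le (by norm_num), Real.rpow_neg (by norm_num : (0 : ℝ) ≤ 2),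
              div_inv_eq_mul, mul_comm]
        _ ≤ 2 * Y ^ (-(2 * lam)) := by
            refine mul_le_mul_of_nonneg_right ?_ (by positivity)
            calc (2 : ℝ) ^ (2 * lam) ≤ 2 ^ (1 : ℝ) :=
                  Real.rpow_le_rpow_of_exponent_le (by norm_num) (by linarith)
              _ = 2 := Real.rpow_one 2
    have k5 : 1 / ‖s‖ ≤ 2 / σ * Y ^ (-1 : ℝ) := by
      rw [Real.rpow_neg_one, div_le_iff₀ hsn]
      calc (1 : ℝ) = 2 / σ * Y⁻¹ * (σ / 2 * Y) := by field_simp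
        _ ≤ 2 / σ * Y⁻¹ * ‖s‖ := mul_le_mul_of_nonneg_left n1 (by positivity)
    calc ‖((x + 1 : ℝ) : ℂ) ^ (s + 1) - (x : ℂ) ^ (s + 1)‖ * (‖F s‖ / (‖s‖ * ‖s + 1‖))
        ≤ (2 * ‖s + 1‖ ^ (1 - 2 * lam) * (x + 1) ^ (σ + 2 * lam)) *
          ((B * Y ^ lam) / (‖s‖ * ‖s + 1‖)) := by
          refine mul_le_mul k1 ?_ (by positivity) (by positivity)
          exact div_le_div_of_nonneg_right k2 (by positivity)
      _ = 2 * B * (x + 1) ^ (σ + 2 * lam) * Y ^ lam *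
          ((‖s + 1‖ ^ (1 - 2 * lam) / ‖s + 1‖) * (1 / ‖s‖)) := by
          field_simp
      _ ≤ 2 * B * (x + 1) ^ (σ + 2 * lam) * Y ^ lam *
          ((2 * Y ^ (-(2 * lam))) * (2 / σ * Y ^ (-1 : ℝ))) := by
          refine mul_le_mul_of_nonneg_left ?_ (by positivity)
          rw [k3]
          exact mul_le_mul k4 k5 (by positivity) (by positivity)
      _ = (8 * B / σ) * (x + 1) ^ (σ + 2 * lam) *
          (Y ^ lam * Y ^ (-(2 * lam)) * Y ^ (-1 : ℝ)) := by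
          ring
      _ = (8 * B / σ) * (x + 1) ^ (σ + 2 * lam) * Y ^ (-(1 + lam)) := by
          rw [← Real.rpow_add hY0, ← Real.rpow_add hY0]
          congr 2
          ring
  have hJn : ‖∫ y : ℝ, J y‖ ≤ (8 * B / σ) * (x + 1) ^ (σ + 2 * lam) * K := by
    rw [hK, ← integral_const_mul]
    exact norm_integral_le_of_norm_le (hKi.const_mul _) (Eventually.of_forall hJb)
  -- assemble
  rw [hN1] at e2
  have hmain : (∑ n ∈ Icc 1 N, a n - c * x) =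
      (((2 * π)⁻¹ : ℝ) : ℂ) * (∫ y : ℝ, J y) - a (N + 1) * ((x - N : ℝ) : ℂ) - c / 2 := by
    rw [hJint, mul_sub, ← mul_assoc, ← mul_assoc]
    have e3 : (((2 * π)⁻¹ : ℝ) : ℂ) * ((x + 1 : ℝ) : ℂ) *
        (∫ y : ℝ, ((x + 1 : ℝ) : ℂ) ^ ((σ : ℂ) + y * Complex.I) *
        (F (σ + y * Complex.I) / ((σ + y * Complex.I) * (σ + y * Complex.I + 1)))) =
        ((x + 1 : ℝ) : ℂ) * (∑ n ∈ Icc 1 (N + 1), a n * (1 - (n : ℂ) / ((x + 1 : ℝ) : ℂ)) -
        c * (((x + 1 : ℝ) : ℂ) / 2 - 1 + 1 / (2 * ((x + 1 : ℝ) : ℂ)))) := by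
      rw [e2]; ring
    have e4 : (((2 * π)⁻¹ : ℝ) : ℂ) * (x : ℂ) *
        (∫ y : ℝ, (x : ℂ) ^ ((σ : ℂ) + y * Complex.I) *
        (F (σ + y * Complex.I) / ((σ + y * Complex.I) * (σ + y * Complex.I + 1)))) =
        (x : ℂ) * (∑ n ∈ Icc 1 N, a n * (1 - (n : ℂ) / x) - c * (x / 2 - 1 + 1 / (2 * x))) := by
      rw [e1]; ring
    rw [e3, e4, hdiff]
    ring
  rw [hmain]
  have hpi : ‖(((2 * π)⁻¹ : ℝ) : ℂ)‖ ≤ 1 := by
    rw [Complex.norm_real, Real.norm_eq_abs, abs_of_pos (by positivity)]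
    exact inv_le_one_of_one_le₀ (by linarith [Real.pi_gt_three])
  have hxp : 1 ≤ x ^ (σ + 2 * lam) := Real.one_le_rpow hx (by linarith)
  have b1 : ‖(((2 * π)⁻¹ : ℝ) : ℂ) * (∫ y : ℝ, J y)‖ ≤
      (8 * B / σ) * 2 ^ (2 : ℝ) * K * x ^ (σ + 2 * lam) := by
    rw [norm_mul]
    have hxx : (x + 1) ^ (σ + 2 * lam) ≤ 2 ^ (2 : ℝ) * x ^ (σ + 2 * lam) := by
      calc (x + 1) ^ (σ + 2 * lam) ≤ (2 * x) ^ (σ + 2 * lam) :=
            Real.rpow_le_rpow (by linarith) (by linarith) (by linarith)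
        _ = 2 ^ (σ + 2 * lam) * x ^ (σ + 2 * lam) := Real.mul_rpow (by norm_num) hx0.le
        _ ≤ _ := by
            refine mul_le_mul_of_nonneg_right ?_ (by positivity)
            exact Real.rpow_le_rpow_of_exponent_le (by norm_num) (by linarith)
    calc ‖(((2 * π)⁻¹ : ℝ) : ℂ)‖ * ‖∫ y : ℝ, J y‖
        ≤ 1 * ((8 * B / σ) * (x + 1) ^ (σ + 2 * lam) * K) :=
          mul_le_mul hpi hJn (norm_nonneg _) zero_le_one
      _ ≤ 1 * ((8 * B / σ) * (2 ^ (2 : ℝ) * x ^ (σ + 2 * lam)) * K) := by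
          gcongr
      _ = _ := by ring
  have b2 : ‖a (N + 1) * ((x - N : ℝ) : ℂ)‖ ≤ 6 * x ^ (σ + 2 * lam) := by
    rw [norm_mul, Complex.norm_real, Real.norm_of_nonneg (by linarith)]
    have h3 := ha (N + 1) (by omega)
    have h4 : Real.log ((N + 1 : ℕ) : ℝ) ≤ 4 * x ^ (σ + 2 * lam) := by
      have h5 : ((N + 1 : ℕ) : ℝ) ≤ 2 * x := by push_cast; linarith
      have h6 : Real.log ((N + 1 : ℕ) : ℝ) ≤ Real.log (2 * x) :=
        Real.log_le_log (by positivity) h5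
      have h7 : Real.log (2 * x) ≤ (2 * x) ^ (1 / 2 : ℝ) / (1 / 2) :=
        Real.log_le_rpow_div (by positivity) (by norm_num)
      have h8 : (2 * x) ^ (1 / 2 : ℝ) = 2 ^ (1 / 2 : ℝ) * x ^ (1 / 2 : ℝ) :=
        Real.mul_rpow (by norm_num) hx0.le
      have h9 : (2 : ℝ) ^ (1 / 2 : ℝ) ≤ 2 := by
        calc (2 : ℝ) ^ (1 / 2 : ℝ) ≤ 2 ^ (1 : ℝ) :=
              Real.rpow_le_rpow_of_exponent_le (by norm_num) (by norm_num)
          _ = 2 := Real.rpow_one 2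
      have h10 : x ^ (1 / 2 : ℝ) ≤ x ^ (σ + 2 * lam) :=
        Real.rpow_le_rpow_of_exponent_le hx (by linarith)
      have h11 : 0 ≤ x ^ (1 / 2 : ℝ) := by positivity
      have h12 : 2 ^ (1 / 2 : ℝ) * x ^ (1 / 2 : ℝ) ≤ 2 * x ^ (σ + 2 * lam) :=
        mul_le_mul h9 h10 h11 (by norm_num)
      rw [h8] at h7
      linarith
    calc ‖a (N + 1)‖ * (x - N) ≤ (1 + Real.log ((N + 1 : ℕ) : ℝ)) * 1 := by
          refine mul_le_mul h3 (by linarith) (by linarith) ?_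
          exact (norm_nonneg _).trans h3
      _ ≤ 6 * x ^ (σ + 2 * lam) := by linarith
  have b3 : ‖c / 2‖ ≤ ‖c‖ * x ^ (σ + 2 * lam) := by
    rw [norm_div, Complex.norm_ofNat]
    have := norm_nonneg c
    nlinarith
  refine (norm_sub_le _ _).trans ?_
  refine (add_le_add (norm_sub_le _ _) le_rfl).trans ?_
  have : 0 ≤ x ^ (σ + 2 * lam) := by positivity
  calc _ ≤ (8 * B / σ) * 2 ^ (2 : ℝ) * K * x ^ (σ + 2 * lam) + 6 * x ^ (σ + 2 * lam) +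
        ‖c‖ * x ^ (σ + 2 * lam) := add_le_add (add_le_add b1 b2) b3
    _ ≤ _ := by nlinarith

end Vale.Agent.P026.AG
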