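import Vale.Agent.P026.AG.Conv

/-!
# P026 AG: assembly
-/

open Finset ArithmeticFunction

namespace Vale.Agent.P026.AG

theorem SAP_one (k c : ℕ) (x : ℝ) : SAP k 1 c x = S k x := by
  rw [SAP, S, Finset.filter_true_of_mem]
  intro n _
  exact Nat.modEq_one

theorem dens_one (k c : ℕ) : dens k 1 c = 1 := by
  induction k generalizing c with
  | zero => simp [dens, Nat.modEq_one]
  | succ k ih =>
    rw [dens]
    simp [ih]

theorem lzeros_one (θ : ℝ) : LZeros 1 θ ↔ ZetaZeros θ := by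
  constructor
  · intro h s hs0 hs1 hz
    refine h 1 s hs0 hs1 ?_
    rw [DirichletCharacter.LFunction_modOne_eq]
    exact hz
  · intro h χ s hs0 hs1 hz
    refine h s hs0 hs1 ?_
    rwa [DirichletCharacter.LFunction_modOne_eq] at hz

/-- the exact exponent modulo a squarefree `q` -/
theorem exact_sqf (hF : Fwd2Stmt) (k q : ℕ) [NeZero q] (θ : ℝ) (hk : 1 ≤ k) (hq : Squarefree q)
    (hθ : 1 / 2 ≤ θ) (hθ1 : θ < 1) :
    LZeros q θ ↔ ∀ ε : ℝ, 0 < ε → ∃ C : ℝ, ∀ (c : ℕ) (x : ℝ), 1 ≤ x →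
      |SAP k q c x - dens k q c * (x ^ k / (k.factorial : ℝ))| ≤ C * x ^ ((k : ℝ) - 1 + θ + ε) := by
  constructor
  · intro hZ ε hε
    exact hF q θ hθ hθ1 hZ k hk ε hε
  · intro h χ s hs0 hs1 hL
    by_contra hcon
    push Not at hcon
    set ε : ℝ := min ((s.re - θ) / 2) ((1 - θ) / 2) with hε
    have h1 : 0 < ε := lt_min (by linarith) (by linarith)
    have h2 : ε ≤ (s.re - θ) / 2 := min_le_left _ _
    have h3 : ε ≤ (1 - θ) / 2 := min_le_right _ _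
    obtain ⟨C, hC⟩ := h ε h1
    have h4 := (conv2Stmt k q (1 - θ - ε) C hk (by linarith) (by linarith) (fun c x hx => by
      have := hC c x hx
      have e1 : (k : ℝ) - (1 - θ - ε) = (k : ℝ) - 1 + θ + ε := by ring
      rw [e1]
      exact this)).2 hq χ s hs0 hs1 hL
    linarith

/-- the exact exponent for zeta -/
theorem exact_zeta (hF : Fwd2Stmt) (k : ℕ) (θ : ℝ) (hk : 1 ≤ k) (hθ : 1 / 2 ≤ θ) (hθ1 : θ < 1) :
    ZetaZeros θ ↔ ∀ ε : ℝ, 0 < ε → ∃ C : ℝ, ∀ x : ℝ, 1 ≤ x →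
      |S k x - x ^ k / (k.factorial : ℝ)| ≤ C * x ^ ((k : ℝ) - 1 + θ + ε) := by
  rw [← lzeros_one, exact_sqf hF k 1 θ hk squarefree_one hθ hθ1]
  simp only [SAP_one, dens_one, one_mul]
  refine forall_congr' fun ε => forall_congr' fun _ => exists_congr fun C => ?_
  exact ⟨fun h x hx => h 0 x hx, fun h _ x hx => h x hx⟩

/-- question Q1 -/
theorem q1_iff (hF : Fwd2Stmt) (k : ℕ) (hk : 1 ≤ k) :
    (∃ θ : ℝ, θ < 1 ∧ ZetaZeros θ) ↔ ∃ δ : ℝ, 0 < δ ∧ ∃ C : ℝ, ∀ x : ℝ, 1 ≤ x →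
      |S k x - x ^ k / (k.factorial : ℝ)| ≤ C * x ^ ((k : ℝ) - δ) := by
  constructor
  · rintro ⟨θ, hθ1, hZ⟩
    set θ' : ℝ := max θ (1 / 2) with hθ'
    have h1 : 1 / 2 ≤ θ' := le_max_right _ _
    have h2 : θ' < 1 := max_lt hθ1 (by norm_num)
    have hZ' : ZetaZeros θ' := fun s hs0 hs1 hz => (hZ s hs0 hs1 hz).trans (le_max_left _ _)
    obtain ⟨C, hC⟩ := (exact_zeta hF k θ' hk h1 h2).mp hZ' ((1 - θ') / 2) (by linarith)
    refine ⟨(1 - θ') / 2, by linarith, C, fun x hx => ?_⟩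
    have := hC x hx
    have e1 : (k : ℝ) - (1 - θ') / 2 = (k : ℝ) - 1 + θ' + (1 - θ') / 2 := by ring
    rw [e1]
    exact this
  · rintro ⟨δ, hδ, C, hC⟩
    set δ' : ℝ := min δ 1 with hδ'
    have h0 : 0 < δ' := lt_min hδ one_pos
    have h1 : δ' ≤ 1 := min_le_right _ _
    refine ⟨1 - δ', by linarith, ?_⟩
    rw [← lzeros_one]
    refine (conv2Stmt k 1 δ' |C| hk h0 h1 (fun c x hx => ?_)).2 squarefree_one
    rw [SAP_one, dens_one, one_mul]
    calc |S k x - x ^ k / (k.factorial : ℝ)| ≤ C * x ^ ((k : ℝ) - δ) := hC x hx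
      _ ≤ |C| * x ^ ((k : ℝ) - δ) := mul_le_mul_of_nonneg_right (le_abs_self _) (by positivity)
      _ ≤ |C| * x ^ ((k : ℝ) - δ') := mul_le_mul_of_nonneg_left
          (Real.rpow_le_rpow_of_exponent_le hx (by linarith [min_le_left δ 1])) (abs_nonneg _)

/-- question Q2 -/
theorem q2_iff (hF : Fwd2Stmt) (k : ℕ) (hk : 1 ≤ k) :
    (∃ θ : ℝ, θ < 1 ∧ ∀ (q : ℕ) [NeZero q], LZeros q θ) ↔
      ∃ δ : ℝ, 0 < δ ∧ ∀ (q : ℕ) [NeZero q], ∃ C : ℝ, ∀ (c : ℕ) (x : ℝ), 1 ≤ x →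
        |SAP k q c x - dens k q c * (x ^ k / (k.factorial : ℝ))| ≤ C * x ^ ((k : ℝ) - δ) := by
  have hk1 : (1 : ℝ) ≤ k := by exact_mod_cast hk
  have hk0 : (0 : ℝ) < k := by linarith
  constructor
  · rintro ⟨θ, hθ1, hZ⟩
    set θ' : ℝ := max θ (1 / 2) with hθ'
    have h1 : 1 / 2 ≤ θ' := le_max_right _ _
    have h2 : θ' < 1 := max_lt hθ1 (by norm_num)
    refine ⟨(1 - θ') / 2, by linarith, fun q _ => ?_⟩
    have hZ' : LZeros q θ' := fun χ s hs0 hs1 hz =>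
      (hZ q χ s hs0 hs1 hz).trans (le_max_left _ _)
    obtain ⟨C, hC⟩ := hF q θ' h1 h2 hZ' k hk ((1 - θ') / 2) (by linarith)
    refine ⟨C, fun c x hx => ?_⟩
    have := hC c x hx
    have e1 : (k : ℝ) - (1 - θ') / 2 = (k : ℝ) - 1 + θ' + (1 - θ') / 2 := by ring
    rw [e1]
    exact this
  · rintro ⟨δ, hδ, h⟩
    set δ' : ℝ := min δ 1 with hδ'
    have h0 : 0 < δ' := lt_min hδ one_pos
    have h1 : δ' ≤ 1 := min_le_right _ _
    refine ⟨1 - δ' / k, by have : 0 < δ' / k := by positivity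
                           linarith, fun q _ => ?_⟩
    obtain ⟨C, hC⟩ := h q
    refine (conv2Stmt k q δ' |C| hk h0 h1 (fun c x hx => ?_)).1
    calc |SAP k q c x - dens k q c * (x ^ k / (k.factorial : ℝ))| ≤ C * x ^ ((k : ℝ) - δ) :=
          hC c x hx
      _ ≤ |C| * x ^ ((k : ℝ) - δ) := mul_le_mul_of_nonneg_right (le_abs_self _) (by positivity)
      _ ≤ |C| * x ^ ((k : ℝ) - δ') := mul_le_mul_of_nonneg_left
          (Real.rpow_le_rpow_of_exponent_le hx (by linarith [min_le_left δ 1])) (abs_nonneg _)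

/-- the quasi-Riemann hypothesis modulo one `q` -/
theorem q_iff (hF : Fwd2Stmt) (k q : ℕ) [NeZero q] (hk : 1 ≤ k) :
    (∃ θ : ℝ, θ < 1 ∧ LZeros q θ) ↔
      ∃ δ : ℝ, 0 < δ ∧ ∃ C : ℝ, ∀ (c : ℕ) (x : ℝ), 1 ≤ x →
        |SAP k q c x - dens k q c * (x ^ k / (k.factorial : ℝ))| ≤ C * x ^ ((k : ℝ) - δ) := by
  have hk1 : (1 : ℝ) ≤ k := by exact_mod_cast hk
  have hk0 : (0 : ℝ) < k := by linarith
  constructor
  · rintro ⟨θ, hθ1, hZ⟩
    set θ' : ℝ := max θ (1 / 2) with hθ'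
    have h1 : 1 / 2 ≤ θ' := le_max_right _ _
    have h2 : θ' < 1 := max_lt hθ1 (by norm_num)
    refine ⟨(1 - θ') / 2, by linarith, ?_⟩
    have hZ' : LZeros q θ' := fun χ s hs0 hs1 hz =>
      (hZ χ s hs0 hs1 hz).trans (le_max_left _ _)
    obtain ⟨C, hC⟩ := hF q θ' h1 h2 hZ' k hk ((1 - θ') / 2) (by linarith)
    refine ⟨C, fun c x hx => ?_⟩
    have := hC c x hx
    have e1 : (k : ℝ) - (1 - θ') / 2 = (k : ℝ) - 1 + θ' + (1 - θ') / 2 := by ring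
    rw [e1]
    exact this
  · rintro ⟨δ, hδ, C, hC⟩
    set δ' : ℝ := min δ 1 with hδ'
    have h0 : 0 < δ' := lt_min hδ one_pos
    have h1 : δ' ≤ 1 := min_le_right _ _
    refine ⟨1 - δ' / k, by have : 0 < δ' / k := by positivity
                           linarith, ?_⟩
    refine (conv2Stmt k q δ' |C| hk h0 h1 (fun c x hx => ?_)).1
    calc |SAP k q c x - dens k q c * (x ^ k / (k.factorial : ℝ))| ≤ C * x ^ ((k : ℝ) - δ) :=
          hC c x hx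
      _ ≤ |C| * x ^ ((k : ℝ) - δ) := mul_le_mul_of_nonneg_right (le_abs_self _) (by positivity)
      _ ≤ |C| * x ^ ((k : ℝ) - δ') := mul_le_mul_of_nonneg_left
          (Real.rpow_le_rpow_of_exponent_le hx (by linarith [min_le_left δ 1])) (abs_nonneg _)

end Vale.Agent.P026.AG
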