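import Vale.Agent.P026.AG.PsiExact
import Vale.Agent.P026.AG.Conv

/-!
# P026: averages of Goldbach functions, the forward direction
-/

open Finset ArithmeticFunction

namespace Vale.Agent.P026.AG

open Vale.Agent.P026.TP

/-- The von Mangoldt function on a residue class. -/
noncomputable def lc (q b m : ℕ) : ℝ := if m ≡ b [MOD q] then vonMangoldt m else 0

/-- The density of the primes in a residue class. -/
noncomputable def kap (q b : ℕ) : ℝ := if Nat.Coprime b q then 1 / (Nat.totient q : ℝ) else 0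

theorem lc_nonneg (q b m : ℕ) : 0 ≤ lc q b m := by
  unfold lc
  split_ifs
  · exact vonMangoldt_nonneg
  · exact le_rfl

theorem kap_nonneg (q b : ℕ) : 0 ≤ kap q b := by
  unfold kap
  split_ifs
  · positivity
  · exact le_rfl

theorem kap_le (q b : ℕ) : kap q b ≤ 1 := by
  unfold kap
  split_ifs
  · rcases Nat.eq_zero_or_pos (Nat.totient q) with h | h
    · rw [h]; simp
    · rw [div_le_one (by exact_mod_cast h)]
      exact_mod_cast h
  · norm_num

/-- The prime powers of a fixed prime. -/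
theorem sum_p_le {p : ℕ} (hp : p.Prime) {M : ℕ} (hM : 1 ≤ M) :
    ∑ m ∈ Icc 1 M, (if p ∣ m then vonMangoldt m else 0) ≤ Real.log M := by
  have h1 : ∑ m ∈ Icc 1 M, (if p ∣ m then vonMangoldt m else 0) ≤
      ∑ m ∈ (Icc 1 (Nat.log p M)).image (fun j => p ^ j), vonMangoldt m := by
    have h2 : ∑ m ∈ Icc 1 M, (if p ∣ m then vonMangoldt m else 0) =
        ∑ m ∈ (Icc 1 M).filter (fun m => p ∣ m ∧ IsPrimePow m), vonMangoldt m := by
      rw [Finset.sum_filter]
      refine Finset.sum_congr rfl fun m _ => ?_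
      by_cases h : p ∣ m
      · by_cases h' : IsPrimePow m
        · rw [if_pos h, if_pos ⟨h, h'⟩]
        · rw [if_pos h, if_neg (fun h'' => h' h''.2)]
          exact vonMangoldt_eq_zero_iff.2 h'
      · rw [if_neg h, if_neg (fun h'' => h h''.1)]
    rw [h2]
    refine Finset.sum_le_sum_of_subset_of_nonneg ?_ fun _ _ _ => vonMangoldt_nonneg
    intro m hm
    simp only [mem_filter, mem_Icc, mem_image] at hm ⊢
    obtain ⟨⟨h3, h4⟩, h5, h6⟩ := hm
    obtain ⟨r, k, hr, hk, rfl⟩ := (isPrimePow_nat_iff _).1 h6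
    have h7 : p = r := (Nat.prime_dvd_prime_iff_eq hp hr).1 (hp.dvd_of_dvd_pow h5)
    subst h7
    exact ⟨k, ⟨hk, Nat.le_log_of_pow_le hp.one_lt h4⟩, rfl⟩
  refine h1.trans ?_
  rw [Finset.sum_image (fun a _ b _ hab => Nat.pow_right_injective hp.two_le hab)]
  have h3 : ∀ j ∈ Icc 1 (Nat.log p M), vonMangoldt (p ^ j) = Real.log p := by
    intro j hj
    rw [mem_Icc] at hj
    rw [vonMangoldt_apply_pow (by omega), vonMangoldt_apply_prime hp]
  rw [Finset.sum_congr rfl h3, Finset.sum_const, Nat.card_Icc, nsmul_eq_mul, Nat.add_sub_cancel]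
  have h4 : p ^ Nat.log p M ≤ M := Nat.pow_log_le_self p (by omega)
  have h5 : Real.log ((p : ℝ) ^ Nat.log p M) ≤ Real.log M := by
    refine Real.log_le_log (pow_pos (by exact_mod_cast hp.pos) _) ?_
    exact_mod_cast h4
  rwa [Real.log_pow] at h5

/-- Non-coprime classes contribute little. -/
theorem sum_noncop_le {q b : ℕ} (hb : ¬ Nat.Coprime b q) {M : ℕ} (hM : 1 ≤ M) :
    ∑ m ∈ Icc 1 M, lc q b m ≤ Real.log M := by
  obtain ⟨p, hp, hpb, hpq⟩ := Nat.Prime.not_coprime_iff_dvd.1 hb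
  refine le_trans (Finset.sum_le_sum fun m _ => ?_) (sum_p_le hp hM)
  unfold lc
  by_cases h : m ≡ b [MOD q]
  · have h1 : m ≡ b [MOD p] := h.of_dvd hpq
    have h2 : p ∣ m := by
      rw [← Nat.modEq_zero_iff_dvd]
      exact h1.trans ((Nat.modEq_zero_iff_dvd).2 hpb)
    rw [if_pos h, if_pos h2]
  · rw [if_neg h]
    split_ifs
    · exact vonMangoldt_nonneg
    · exact le_rfl

theorem step_A {q : ℕ} [NeZero q] {θ : ℝ} (hθ : 1 / 2 ≤ θ) (hθ1 : θ < 1) (hZ : LZeros q θ)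
    {ε : ℝ} (hε : 0 < ε) :
    ∃ C : ℝ, 0 ≤ C ∧ ∀ b M : ℕ, 1 ≤ M →
      |∑ m ∈ Icc 1 M, (lc q b m - kap q b)| ≤ C * (M : ℝ) ^ (θ + ε) := by
  obtain ⟨C, hC0, hC⟩ := psi_exact hθ hθ1 hZ hε
  refine ⟨C + 1 / (θ + ε), by positivity, fun b M hM => ?_⟩
  have hMr : (1 : ℝ) ≤ M := by exact_mod_cast hM
  have hpos : 0 ≤ (M : ℝ) ^ (θ + ε) := by positivity
  rw [Finset.sum_sub_distrib, Finset.sum_const, Nat.card_Icc, nsmul_eq_mul, Nat.add_sub_cancel]
  by_cases hb : Nat.Coprime b q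
  · have h1 := hC b M hb hMr
    have h2 : psiAP (M : ℝ) q b = ∑ m ∈ Icc 1 M, lc q b m := by
      unfold psiAP lc
      rw [Nat.floor_natCast, Finset.sum_filter]
    rw [h2] at h1
    have h3 : (M : ℝ) * kap q b = (M : ℝ) / (Nat.totient q : ℝ) := by
      unfold kap
      rw [if_pos hb]
      ring
    rw [h3]
    refine h1.trans ?_
    refine mul_le_mul_of_nonneg_right ?_ hpos
    have : 0 ≤ 1 / (θ + ε) := by positivity
    linarith
  · have h3 : kap q b = 0 := by unfold kap; rw [if_neg hb]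
    rw [h3, mul_zero, sub_zero, abs_of_nonneg (Finset.sum_nonneg fun m _ => lc_nonneg _ _ _)]
    refine (sum_noncop_le hb hM).trans ?_
    have h4 : Real.log M ≤ (M : ℝ) ^ (θ + ε) / (θ + ε) :=
      Real.log_le_rpow_div (by linarith) (by linarith)
    calc Real.log M ≤ 1 / (θ + ε) * (M : ℝ) ^ (θ + ε) := by rw [one_div_mul_eq_div]; exact h4
      _ ≤ _ := by
        refine mul_le_mul_of_nonneg_right ?_ hpos
        linarith

/-- Abel summation against a nonnegative decreasing function. -/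
theorem step_B (d g : ℕ → ℝ) (E : ℝ) (M : ℕ) (hM : 1 ≤ M)
    (hd : ∀ K, 1 ≤ K → K ≤ M → |∑ m ∈ Icc 1 K, d m| ≤ E)
    (hg0 : ∀ m, 1 ≤ m → m ≤ M → 0 ≤ g m) (hg : ∀ m, 1 ≤ m → m + 1 ≤ M → g (m + 1) ≤ g m) :
    |∑ m ∈ Icc 1 M, d m * g m| ≤ E * g 1 := by
  have key : ∀ K, 1 ≤ K → K ≤ M →
      |∑ m ∈ Icc 1 K, d m * g m - (∑ m ∈ Icc 1 K, d m) * g K| ≤ E * (g 1 - g K) := by
    intro K hK
    induction K, hK using Nat.le_induction with
    | base => intro _; simp
    | succ K hK ih =>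
      intro hKM
      have h1 := ih (by omega)
      have h2 := hd K hK (by omega)
      have h3 := hg K hK hKM
      have h4 : ∑ m ∈ Icc 1 (K + 1), d m * g m - (∑ m ∈ Icc 1 (K + 1), d m) * g (K + 1) =
          (∑ m ∈ Icc 1 K, d m * g m - (∑ m ∈ Icc 1 K, d m) * g K) +
          (∑ m ∈ Icc 1 K, d m) * (g K - g (K + 1)) := by
        rw [Finset.sum_Icc_succ_top (by omega), Finset.sum_Icc_succ_top (by omega)]
        ring
      rw [h4]
      calc _ ≤ |∑ m ∈ Icc 1 K, d m * g m - (∑ m ∈ Icc 1 K, d m) * g K| +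
            |(∑ m ∈ Icc 1 K, d m) * (g K - g (K + 1))| := abs_add_le _ _
        _ ≤ E * (g 1 - g K) + E * (g K - g (K + 1)) := by
            refine add_le_add h1 ?_
            rw [abs_mul, abs_of_nonneg (sub_nonneg.2 h3)]
            exact mul_le_mul_of_nonneg_right h2 (sub_nonneg.2 h3)
        _ = _ := by ring
  have h1 := key M hM le_rfl
  have h2 := hd M hM le_rfl
  have h3 := hg0 M hM le_rfl
  calc |∑ m ∈ Icc 1 M, d m * g m| =
        |(∑ m ∈ Icc 1 M, d m * g m - (∑ m ∈ Icc 1 M, d m) * g M) +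
          (∑ m ∈ Icc 1 M, d m) * g M| := by congr 1; ring
    _ ≤ |∑ m ∈ Icc 1 M, d m * g m - (∑ m ∈ Icc 1 M, d m) * g M| +
          |(∑ m ∈ Icc 1 M, d m) * g M| := abs_add_le _ _
    _ ≤ E * (g 1 - g M) + E * g M := by
        refine add_le_add h1 ?_
        rw [abs_mul, abs_of_nonneg h3]
        exact mul_le_mul_of_nonneg_right h2 h3
    _ = _ := by ring

theorem pow_diff_le (k : ℕ) {u v : ℝ} (hu : 0 ≤ u) (huv : u ≤ v) :
    v ^ (k + 1) - u ^ (k + 1) ≤ (k + 1) * v ^ k * (v - u) := by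
  induction k with
  | zero => simp
  | succ k ih =>
    have h1 : v ^ (k + 1 + 1) - u ^ (k + 1 + 1) =
        (v ^ (k + 1) - u ^ (k + 1)) * v + u ^ (k + 1) * (v - u) := by ring
    have h2 : u ^ (k + 1) ≤ v ^ (k + 1) := pow_le_pow_left₀ hu huv _
    have h3 : (v ^ (k + 1) - u ^ (k + 1)) * v ≤ (k + 1) * v ^ k * (v - u) * v :=
      mul_le_mul_of_nonneg_right ih (hu.trans huv)
    have h4 : u ^ (k + 1) * (v - u) ≤ v ^ (k + 1) * (v - u) :=
      mul_le_mul_of_nonneg_right h2 (by linarith)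
    rw [h1]
    push_cast
    calc _ ≤ (k + 1) * v ^ k * (v - u) * v + v ^ (k + 1) * (v - u) := add_le_add h3 h4
      _ = _ := by ring

theorem pow_diff_ge (k : ℕ) {u v : ℝ} (hu : 0 ≤ u) (huv : u ≤ v) :
    (k + 1) * u ^ k * (v - u) ≤ v ^ (k + 1) - u ^ (k + 1) := by
  induction k with
  | zero => simp
  | succ k ih =>
    have h1 : v ^ (k + 1 + 1) - u ^ (k + 1 + 1) =
        (v ^ (k + 1) - u ^ (k + 1)) * u + v ^ (k + 1) * (v - u) := by ring
    have h2 : u ^ (k + 1) ≤ v ^ (k + 1) := pow_le_pow_left₀ hu huv _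
    have h3 : (k + 1) * u ^ k * (v - u) * u ≤ (v ^ (k + 1) - u ^ (k + 1)) * u :=
      mul_le_mul_of_nonneg_right ih hu
    have h4 : u ^ (k + 1) * (v - u) ≤ v ^ (k + 1) * (v - u) :=
      mul_le_mul_of_nonneg_right h2 (by linarith)
    rw [h1]
    push_cast
    calc _ = (k + 1) * u ^ k * (v - u) * u + u ^ (k + 1) * (v - u) := by ring
      _ ≤ _ := add_le_add h3 h4

/-- The power sum of the model. -/
theorem step_C (k : ℕ) {x : ℝ} (hx : 1 ≤ x) :
    |∑ m ∈ Icc 1 ⌊x⌋₊, (x - m) ^ k - x ^ (k + 1) / (k + 1)| ≤ 2 * x ^ k := by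
  have hk : (0 : ℝ) < k + 1 := by positivity
  have hfl : ((⌊x⌋₊ : ℕ) : ℝ) ≤ x := Nat.floor_le (by linarith)
  have hfl1 : 1 ≤ ⌊x⌋₊ := Nat.floor_pos.2 hx
  have hflt : x < (⌊x⌋₊ : ℝ) + 1 := Nat.lt_floor_add_one x
  have up : ∀ K : ℕ, (K : ℝ) ≤ x →
      (k + 1) * ∑ m ∈ Icc 1 K, (x - m) ^ k ≤ x ^ (k + 1) - (x - K) ^ (k + 1) := by
    intro K
    induction K with
    | zero => intro _; simp
    | succ K ih =>
      intro hK
      push_cast at hK
      have h1 := ih (by linarith)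
      rw [Finset.sum_Icc_succ_top (by omega), mul_add]
      have h2 := pow_diff_ge k (u := x - (K + 1)) (v := x - K) (by linarith) (by linarith)
      have h3 : x - K - (x - (K + 1)) = 1 := by ring
      rw [h3, mul_one] at h2
      push_cast
      linarith
  have low : ∀ K : ℕ, ((K + 1 : ℕ) : ℝ) ≤ x →
      (x - 1) ^ (k + 1) - (x - (K + 1)) ^ (k + 1) ≤ (k + 1) * ∑ m ∈ Icc 1 K, (x - m) ^ k := by
    intro K
    induction K with
    | zero => intro _; simp
    | succ K ih =>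
      intro hK
      push_cast at hK
      have h1 := ih (by push_cast; linarith)
      rw [Finset.sum_Icc_succ_top (by omega), mul_add]
      have h2 := pow_diff_le k (u := x - (K + 1 + 1)) (v := x - (K + 1)) (by linarith)
        (by linarith)
      have h3 : x - (K + 1) - (x - (K + 1 + 1)) = 1 := by ring
      rw [h3, mul_one] at h2
      push_cast
      linarith
  have hxk : 1 ≤ x ^ k := one_le_pow₀ hx
  rw [abs_le]
  constructor
  · -- lower bound
    obtain ⟨K, hK⟩ : ∃ K, ⌊x⌋₊ = K + 1 := ⟨⌊x⌋₊ - 1, by omega⟩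
    have h1 := low K (by rw [← hK]; exact hfl)
    have h2 : ∑ m ∈ Icc 1 K, (x - m) ^ k ≤ ∑ m ∈ Icc 1 ⌊x⌋₊, (x - m) ^ k := by
      rw [hK, Finset.sum_Icc_succ_top (by omega)]
      have : 0 ≤ (x - ((K + 1 : ℕ) : ℝ)) ^ k := pow_nonneg (by rw [← hK]; linarith) _
      linarith
    have h3 := pow_diff_le k (u := x - 1) (v := x) (by linarith) (by linarith)
    have h4 : x - (x - 1) = 1 := by ring
    rw [h4, mul_one] at h3
    have h5 : (x - ((K : ℝ) + 1)) ^ (k + 1) ≤ 1 := by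
      have h6 : ((⌊x⌋₊ : ℕ) : ℝ) = (K : ℝ) + 1 := by rw [hK]; push_cast; ring
      rw [← h6]
      exact pow_le_one₀ (by linarith) (by linarith)
    have h7 : (k + 1) * ∑ m ∈ Icc 1 K, (x - m) ^ k ≤ (k + 1) * ∑ m ∈ Icc 1 ⌊x⌋₊, (x - m) ^ k :=
      mul_le_mul_of_nonneg_left h2 hk.le
    have h8 : x ^ (k + 1) - (k + 1) * x ^ k - 1 ≤
        (k + 1) * ∑ m ∈ Icc 1 ⌊x⌋₊, (x - m) ^ k := by linarith
    have h9 : x ^ (k + 1) / (k + 1) - 2 * x ^ k ≤ ∑ m ∈ Icc 1 ⌊x⌋₊, (x - m) ^ k := by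
      rw [← mul_le_mul_iff_right₀ hk]
      have e1 : (k + 1) * (x ^ (k + 1) / (k + 1) - 2 * x ^ k) =
          x ^ (k + 1) - 2 * ((k + 1) * x ^ k) := by
        field_simp
      rw [e1]
      have e2 : 1 ≤ (k + 1) * x ^ k := by
        have : (1 : ℝ) ≤ k + 1 := by
          have := Nat.cast_nonneg (α := ℝ) k
          linarith
        nlinarith
      linarith
    linarith
  · -- upper bound
    have h1 := up ⌊x⌋₊ hfl
    have h2 : 0 ≤ (x - (⌊x⌋₊ : ℝ)) ^ (k + 1) := pow_nonneg (by linarith) _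
    have h3 : ∑ m ∈ Icc 1 ⌊x⌋₊, (x - m) ^ k ≤ x ^ (k + 1) / (k + 1) := by
      rw [le_div_iff₀ hk, mul_comm]
      linarith
    have h4 : 0 ≤ 2 * x ^ k := by linarith
    linarith

theorem step_D {q : ℕ} [NeZero q] {θ : ℝ} (hθ : 1 / 2 ≤ θ) (hθ1 : θ < 1) (hZ : LZeros q θ)
    {ε : ℝ} (hε : 0 < ε) (k : ℕ) :
    ∃ C : ℝ, 0 ≤ C ∧ ∀ (b : ℕ) (x : ℝ), 1 ≤ x →
      |∑ m ∈ Icc 1 ⌊x⌋₊, lc q b m * ((x - m) ^ k / (k.factorial : ℝ)) -
        kap q b * (x ^ (k + 1) / ((k + 1).factorial : ℝ))| ≤ C * x ^ ((k : ℝ) + θ + ε) := by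
  obtain ⟨C, hC0, hC⟩ := step_A hθ hθ1 hZ hε
  refine ⟨C + 2, by positivity, fun b x hx => ?_⟩
  have hx0 : 0 < x := by linarith
  have hfl : ((⌊x⌋₊ : ℕ) : ℝ) ≤ x := Nat.floor_le (by linarith)
  have hfl1 : 1 ≤ ⌊x⌋₊ := Nat.floor_pos.2 hx
  have hf : (1 : ℝ) ≤ k.factorial := by exact_mod_cast Nat.factorial_pos k
  have hf0 : (0 : ℝ) < k.factorial := by linarith
  have h1 : |∑ m ∈ Icc 1 ⌊x⌋₊, (lc q b m - kap q b) * (x - m) ^ k| ≤
      C * x ^ (θ + ε) * (x - (1 : ℕ)) ^ k := by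
    refine step_B _ (fun m => (x - m) ^ k) (C * x ^ (θ + ε)) ⌊x⌋₊ hfl1 ?_ ?_ ?_
    · intro K hK hK2
      refine (hC b K hK).trans ?_
      refine mul_le_mul_of_nonneg_left ?_ hC0
      refine Real.rpow_le_rpow (by positivity) ?_ (by linarith)
      have : (K : ℝ) ≤ (⌊x⌋₊ : ℝ) := by exact_mod_cast hK2
      linarith
    · intro m _ hm
      have : (m : ℝ) ≤ (⌊x⌋₊ : ℝ) := by exact_mod_cast hm
      exact pow_nonneg (by linarith) _
    · intro m _ hm
      have : ((m + 1 : ℕ) : ℝ) ≤ (⌊x⌋₊ : ℝ) := by exact_mod_cast hm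
      refine pow_le_pow_left₀ (by linarith) ?_ _
      push_cast
      linarith
  have h2 : C * x ^ (θ + ε) * (x - (1 : ℕ)) ^ k ≤ C * x ^ ((k : ℝ) + θ + ε) := by
    have e1 : x ^ ((k : ℝ) + θ + ε) = x ^ (θ + ε) * x ^ k := by
      rw [← Real.rpow_natCast x k, ← Real.rpow_add hx0]
      congr 1
      ring
    rw [e1, mul_assoc]
    refine mul_le_mul_of_nonneg_left ?_ hC0
    refine mul_le_mul_of_nonneg_left ?_ (by positivity)
    exact pow_le_pow_left₀ (by push_cast; linarith) (by push_cast; linarith) _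
  have h3 := step_C k hx
  have h4 : x ^ k ≤ x ^ ((k : ℝ) + θ + ε) := by
    rw [← Real.rpow_natCast x k]
    exact Real.rpow_le_rpow_of_exponent_le hx (by linarith)
  have h5 : ∑ m ∈ Icc 1 ⌊x⌋₊, lc q b m * ((x - m) ^ k / (k.factorial : ℝ)) -
      kap q b * (x ^ (k + 1) / ((k + 1).factorial : ℝ)) =
      (∑ m ∈ Icc 1 ⌊x⌋₊, (lc q b m - kap q b) * (x - m) ^ k +
        kap q b * (∑ m ∈ Icc 1 ⌊x⌋₊, (x - m) ^ k - x ^ (k + 1) / (k + 1))) /
          (k.factorial : ℝ) := by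
    rw [Nat.factorial_succ]
    push_cast
    have e1 : ∑ m ∈ Icc 1 ⌊x⌋₊, lc q b m * ((x - m) ^ k / (k.factorial : ℝ)) =
        (∑ m ∈ Icc 1 ⌊x⌋₊, lc q b m * (x - m) ^ k) / (k.factorial : ℝ) := by
      rw [Finset.sum_div]
      exact Finset.sum_congr rfl fun m _ => by ring
    have e2 : ∑ m ∈ Icc 1 ⌊x⌋₊, (lc q b m - kap q b) * (x - m) ^ k =
        ∑ m ∈ Icc 1 ⌊x⌋₊, lc q b m * (x - m) ^ k - kap q b * ∑ m ∈ Icc 1 ⌊x⌋₊, (x - m) ^ k := by
      rw [Finset.mul_sum, ← Finset.sum_sub_distrib]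
      exact Finset.sum_congr rfl fun m _ => by ring
    rw [e1, e2]
    field_simp
    ring
  rw [h5, abs_div, abs_of_pos hf0]
  refine (div_le_self (abs_nonneg _) hf).trans ?_
  calc _ ≤ |∑ m ∈ Icc 1 ⌊x⌋₊, (lc q b m - kap q b) * (x - m) ^ k| +
        |kap q b * (∑ m ∈ Icc 1 ⌊x⌋₊, (x - m) ^ k - x ^ (k + 1) / (k + 1))| := abs_add_le _ _
    _ ≤ C * x ^ ((k : ℝ) + θ + ε) + 1 * (2 * x ^ k) := by
        refine add_le_add (h1.trans h2) ?_
        rw [abs_mul, abs_of_nonneg (kap_nonneg _ _)]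
        exact mul_le_mul (kap_le _ _) h3 (abs_nonneg _) zero_le_one
    _ ≤ (C + 2) * x ^ ((k : ℝ) + θ + ε) := by linarith

theorem class_iff {q : ℕ} (hq : 0 < q) (m j c : ℕ) :
    m + j ≡ c [MOD q] ↔ j ≡ c + (q - m % q) [MOD q] := by
  have h1 : m % q < q := Nat.mod_lt _ hq
  have h2 : m + (q - m % q) ≡ 0 [MOD q] := by
    rw [Nat.modEq_zero_iff_dvd]
    have h3 := Nat.mod_add_div m q
    have h4 : m + (q - m % q) = q * (m / q) + q := by omega
    rw [h4]
    exact Dvd.intro (m / q + 1) (by ring)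
  constructor
  · intro h
    have h3 : m + j + (q - m % q) ≡ c + (q - m % q) [MOD q] := h.add_right _
    have h4 : m + j + (q - m % q) = j + (m + (q - m % q)) := by ring
    rw [h4] at h3
    have h5 : j + (m + (q - m % q)) ≡ j + 0 [MOD q] := h2.add_left _
    exact (h5.symm.trans h3)
  · intro h
    have h3 : m + j ≡ m + (c + (q - m % q)) [MOD q] := h.add_left _
    have h4 : m + (c + (q - m % q)) = c + (m + (q - m % q)) := by ring
    rw [h4] at h3
    exact h3.trans (h2.add_left c)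

theorem step_E {q : ℕ} (hq : 0 < q) (k c : ℕ) (x : ℝ) :
    SAP (k + 1) q c x =
      ∑ m ∈ Icc 1 ⌊x⌋₊, vonMangoldt m * SAP k q (c + (q - m % q)) (x - m) := by
  set X := ⌊x⌋₊ with hX
  set f : ℕ → ℕ → ℝ := fun m j => if m + j ≡ c [MOD q] then vonMangoldt m * G k j else 0 with hf
  have h1 : SAP (k + 1) q c x = ∑ n ∈ range (X + 1), ∑ m ∈ range (n + 1), f m (n - m) := by
    rw [SAP_eq]
    refine Finset.sum_congr rfl fun n _ => ?_
    unfold gc
    by_cases h : n ≡ c [MOD q]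
    · rw [if_pos h, G]
      refine Finset.sum_congr rfl fun m hm => ?_
      rw [mem_range] at hm
      have h2 : m + (n - m) = n := by omega
      simp only [hf, h2, if_pos h]
    · rw [if_neg h]
      symm
      refine Finset.sum_eq_zero fun m hm => ?_
      rw [mem_range] at hm
      have h2 : m + (n - m) = n := by omega
      simp only [hf, h2, if_neg h]
  rw [h1, Finset.sum_range_diag_flip]
  have h2 : ∑ m ∈ range (X + 1), ∑ j ∈ range (X + 1 - m), f m j =
      ∑ m ∈ Icc 1 X, ∑ j ∈ range (X + 1 - m), f m j := by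
    have h3 : range (X + 1) = insert 0 (Icc 1 X) := by
      ext m
      simp only [mem_range, mem_insert, mem_Icc]
      omega
    rw [h3, Finset.sum_insert (by simp)]
    have h4 : ∑ j ∈ range (X + 1 - 0), f 0 j = 0 := by
      refine Finset.sum_eq_zero fun j _ => ?_
      simp [hf]
    rw [h4, zero_add]
  rw [h2]
  refine Finset.sum_congr rfl fun m hm => ?_
  rw [mem_Icc] at hm
  rw [SAP_eq, Nat.floor_sub_natCast, ← hX, Finset.mul_sum]
  have h5 : X + 1 - m = X - m + 1 := by omega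
  rw [h5]
  refine Finset.sum_congr rfl fun j _ => ?_
  simp only [hf, gc, class_iff hq m j c]
  split_ifs <;> simp

theorem dens_nonneg (k q c : ℕ) : 0 ≤ dens k q c := by
  induction k generalizing c with
  | zero => rw [dens]; split_ifs <;> norm_num
  | succ k ih =>
    rw [dens]
    exact div_nonneg (Finset.sum_nonneg fun b _ => ih _) (Nat.cast_nonneg _)

theorem card_cop' (q : ℕ) : ((range q).filter (fun r => Nat.Coprime r q)).card = Nat.totient q := by
  rw [Nat.totient_eq_card_coprime]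
  congr 1
  ext r
  simp only [mem_filter, Nat.coprime_comm]

theorem dens_le (k q c : ℕ) : dens k q c ≤ 1 := by
  induction k generalizing c with
  | zero => rw [dens]; split_ifs <;> norm_num
  | succ k ih =>
    rw [dens]
    refine div_le_one_of_le₀ ?_ (Nat.cast_nonneg _)
    calc _ ≤ ∑ b ∈ (range q).filter (fun b => Nat.Coprime b q), (1 : ℝ) :=
          Finset.sum_le_sum fun b _ => ih _
      _ = _ := by rw [Finset.sum_const, card_cop', nsmul_eq_mul, mul_one]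

theorem dens_succ (k q c : ℕ) :
    dens (k + 1) q c = ∑ b ∈ range q, dens k q (c + (q - b)) * kap q b := by
  rw [dens, Finset.sum_filter, Finset.sum_div]
  refine Finset.sum_congr rfl fun b _ => ?_
  unfold kap
  split_ifs
  · ring
  · simp

theorem split_class {q : ℕ} (hq : 0 < q) (m : ℕ) (D : ℕ → ℝ) :
    vonMangoldt m * D (m % q) = ∑ b ∈ range q, D b * lc q b m := by
  rw [Finset.sum_eq_single (m % q)]
  · unfold lc
    rw [if_pos (Nat.mod_modEq m q).symm]
    ring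
  · intro b hb hne
    rw [mem_range] at hb
    unfold lc
    rw [if_neg, mul_zero]
    intro h
    apply hne
    rw [← Nat.mod_eq_of_lt hb]
    exact h.symm
  · intro h
    exact absurd (mem_range.2 (Nat.mod_lt _ hq)) h

/-- The error term. -/
noncomputable def er (k q c : ℕ) (x : ℝ) : ℝ :=
  SAP k q c x - dens k q c * (x ^ k / (k.factorial : ℝ))

theorem er_succ {q : ℕ} (hq : 0 < q) (k c : ℕ) (x : ℝ) :
    er (k + 1) q c x =
      ∑ m ∈ Icc 1 ⌊x⌋₊, vonMangoldt m * er k q (c + (q - m % q)) (x - m) +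
      ∑ b ∈ range q, dens k q (c + (q - b)) *
        (∑ m ∈ Icc 1 ⌊x⌋₊, lc q b m * ((x - m) ^ k / (k.factorial : ℝ)) -
          kap q b * (x ^ (k + 1) / ((k + 1).factorial : ℝ))) := by
  have h1 : ∑ m ∈ Icc 1 ⌊x⌋₊, vonMangoldt m *
      (dens k q (c + (q - m % q)) * ((x - m) ^ k / (k.factorial : ℝ))) =
      ∑ b ∈ range q, dens k q (c + (q - b)) *
        ∑ m ∈ Icc 1 ⌊x⌋₊, lc q b m * ((x - m) ^ k / (k.factorial : ℝ)) := by
    simp only [Finset.mul_sum]
    rw [Finset.sum_comm]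
    refine Finset.sum_congr rfl fun m _ => ?_
    rw [← mul_assoc, split_class hq m (fun b => dens k q (c + (q - b))), Finset.sum_mul]
    exact Finset.sum_congr rfl fun b _ => by ring
  unfold er
  rw [step_E hq, dens_succ, Finset.sum_mul]
  simp only [mul_sub, Finset.sum_sub_distrib]
  rw [h1]
  have h2 : ∑ b ∈ range q, dens k q (c + (q - b)) *
      (kap q b * (x ^ (k + 1) / ((k + 1).factorial : ℝ))) =
      ∑ b ∈ range q, dens k q (c + (q - b)) * kap q b *
        (x ^ (k + 1) / ((k + 1).factorial : ℝ)) :=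
    Finset.sum_congr rfl fun b _ => by ring
  rw [h2]
  ring

theorem SAP_small {k : ℕ} (hk : 1 ≤ k) (q c : ℕ) {y : ℝ} (_hy0 : 0 ≤ y) (hy : y < 1) :
    SAP k q c y = 0 := by
  rw [SAP_eq, Nat.floor_eq_zero.2 hy, zero_add, Finset.sum_range_one]
  unfold gc
  rw [G_zero_right hk]
  split_ifs <;> rfl

theorem er_small {k : ℕ} (hk : 1 ≤ k) (q c : ℕ) {y : ℝ} (hy0 : 0 ≤ y) (hy : y < 1) :
    |er k q c y| ≤ 1 := by
  unfold er
  rw [SAP_small hk q c hy0 hy, zero_sub, abs_neg, abs_mul, abs_of_nonneg (dens_nonneg _ _ _)]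
  have h1 : 0 ≤ y ^ k / (k.factorial : ℝ) := by positivity
  have h2 : y ^ k / (k.factorial : ℝ) ≤ 1 := by
    refine div_le_one_of_le₀ ?_ (Nat.cast_nonneg _)
    have h3 : (1 : ℝ) ≤ k.factorial := by exact_mod_cast Nat.factorial_pos k
    exact (pow_le_one₀ hy0 hy.le).trans h3
  rw [abs_of_nonneg h1]
  exact mul_le_one₀ (dens_le _ _ _) h1 h2

theorem psi_sum_le {x : ℝ} (hx : 0 ≤ x) :
    ∑ m ∈ Icc 1 ⌊x⌋₊, vonMangoldt m ≤ (Real.log 4 + 4) * x :=
  Chebyshev.psi_le_const_mul_self hx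

theorem step_bound {q : ℕ} (hq : 0 < q) (k c : ℕ) {x B D : ℝ} (hx : 1 ≤ x) (hB : 0 ≤ B)
    (hBk : ∀ (c : ℕ) (y : ℝ), 0 ≤ y → y ≤ x → |er k q c y| ≤ B)
    (hD : ∀ b : ℕ, |∑ m ∈ Icc 1 ⌊x⌋₊, lc q b m * ((x - m) ^ k / (k.factorial : ℝ)) -
        kap q b * (x ^ (k + 1) / ((k + 1).factorial : ℝ))| ≤ D) :
    |er (k + 1) q c x| ≤ (Real.log 4 + 4) * x * B + q * D := by
  rw [er_succ hq]
  have hfl : ((⌊x⌋₊ : ℕ) : ℝ) ≤ x := Nat.floor_le (by linarith)
  refine (abs_add_le _ _).trans (add_le_add ?_ ?_)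
  · refine (Finset.abs_sum_le_sum_abs _ _).trans ?_
    calc _ ≤ ∑ m ∈ Icc 1 ⌊x⌋₊, vonMangoldt m * B := by
          refine Finset.sum_le_sum fun m hm => ?_
          rw [mem_Icc] at hm
          have h1 : (m : ℝ) ≤ (⌊x⌋₊ : ℝ) := by exact_mod_cast hm.2
          rw [abs_mul, abs_of_nonneg vonMangoldt_nonneg]
          refine mul_le_mul_of_nonneg_left ?_ vonMangoldt_nonneg
          refine hBk _ _ (by linarith) ?_
          have := Nat.cast_nonneg (α := ℝ) m
          linarith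
      _ ≤ _ := by
          rw [← Finset.sum_mul]
          exact mul_le_mul_of_nonneg_right (psi_sum_le (by linarith)) hB
  · refine (Finset.abs_sum_le_sum_abs _ _).trans ?_
    calc _ ≤ ∑ b ∈ range q, D := by
          refine Finset.sum_le_sum fun b _ => ?_
          rw [abs_mul, abs_of_nonneg (dens_nonneg _ _ _)]
          have h1 := hD b
          have h2 := dens_le k q (c + (q - b))
          have h3 := dens_nonneg k q (c + (q - b))
          calc _ ≤ 1 * D := mul_le_mul h2 h1 (abs_nonneg _) zero_le_one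
            _ = D := one_mul D
      _ = _ := by rw [Finset.sum_const, card_range, nsmul_eq_mul]

theorem er_bound {q : ℕ} [NeZero q] {θ : ℝ} (hθ : 1 / 2 ≤ θ) (hθ1 : θ < 1) (hZ : LZeros q θ)
    {ε : ℝ} (hε : 0 < ε) (k : ℕ) (hk : 1 ≤ k) :
    ∃ C : ℝ, 0 ≤ C ∧ ∀ (c : ℕ) (x : ℝ), 1 ≤ x → |er k q c x| ≤ C * x ^ ((k : ℝ) - 1 + θ + ε) := by
  have hq : 0 < q := NeZero.pos q
  have hlog : 0 ≤ Real.log 4 := Real.log_nonneg (by norm_num)
  induction k, hk using Nat.le_induction with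
  | base =>
    obtain ⟨D, hD0, hD⟩ := step_D hθ hθ1 hZ hε 0
    refine ⟨q * D, by positivity, fun c x hx => ?_⟩
    have h1 := step_bound hq 0 c (B := 0) (D := D * x ^ (((0 : ℕ) : ℝ) + θ + ε)) hx le_rfl ?_
      (fun b => hD b x hx)
    · rw [mul_zero, zero_add] at h1
      refine h1.trans (le_of_eq ?_)
      push_cast
      rw [show (1 : ℝ) - 1 + θ + ε = 0 + θ + ε by ring]
      ring
    · intro c y hy0 hy
      unfold er
      rw [SAP_eq]
      have h2 : ∑ n ∈ range (⌊y⌋₊ + 1), gc 0 q c n = dens 0 q c := by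
        rw [Finset.sum_eq_single 0]
        · simp only [gc, G, dens, Nat.ModEq.comm (a := 0) (b := c)]
          split_ifs <;> simp
        · intro n _ hn
          simp [gc, G, hn]
        · intro h
          exact absurd (mem_range.2 (Nat.succ_pos _)) h
      rw [h2]
      simp
  | succ k hk ih =>
    obtain ⟨C, hC0, hC⟩ := ih
    obtain ⟨D, hD0, hD⟩ := step_D hθ hθ1 hZ hε k
    have hkr : (1 : ℝ) ≤ k := by exact_mod_cast hk
    refine ⟨(Real.log 4 + 4) * (C + 1) + q * D, by positivity, fun c x hx => ?_⟩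
    have hx0 : 0 < x := by linarith
    have h1 := step_bound hq k c (B := (C + 1) * x ^ ((k : ℝ) - 1 + θ + ε))
      (D := D * x ^ ((k : ℝ) + θ + ε)) hx (by positivity) ?_ (fun b => hD b x hx)
    · refine h1.trans (le_of_eq ?_)
      have e1 : x * x ^ ((k : ℝ) - 1 + θ + ε) = x ^ ((k : ℝ) + θ + ε) := by
        rw [← Real.rpow_one_add' hx0.le (by linarith)]
        congr 1
        ring
      have e2 : (((k + 1 : ℕ) : ℝ) - 1 + θ + ε) = (k : ℝ) + θ + ε := by push_cast; ring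
      rw [e2]
      linear_combination ((Real.log 4 + 4) * (C + 1)) * e1
    · intro c y hy0 hy
      have hp : 1 ≤ x ^ ((k : ℝ) - 1 + θ + ε) := Real.one_le_rpow hx (by linarith)
      rcases lt_or_ge y 1 with h | h
      · refine (er_small hk q c hy0 h).trans ?_
        nlinarith
      · refine (hC c y h).trans ?_
        have h3 : y ^ ((k : ℝ) - 1 + θ + ε) ≤ x ^ ((k : ℝ) - 1 + θ + ε) :=
          Real.rpow_le_rpow hy0 hy (by linarith)
        calc _ ≤ C * x ^ ((k : ℝ) - 1 + θ + ε) := mul_le_mul_of_nonneg_left h3 hC0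
          _ ≤ _ := mul_le_mul_of_nonneg_right (by linarith) (by positivity)

theorem fwd2Stmt : Fwd2Stmt := by
  intro q _ θ hθ hθ1 hZ k hk ε hε
  obtain ⟨C, _, hC⟩ := er_bound hθ hθ1 hZ hε k hk
  exact ⟨C, hC⟩

end Vale.Agent.P026.AG
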