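import Vale.Agent.P026.AG.Fwd

/-! `fwd2Stmt : Fwd2Stmt` is proved in `Vale.Agent.P026.AG.Fwd`. -/
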