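import Vale.Agent.P026.TP.ZF
import Vale.Agent.P026.AG.Defs

/-!
# P026 AG: the logarithmic derivative to the right of a zero free line, with small growth
-/

open Finset Real Metric DirichletCharacter

namespace Vale.Agent.P026.AG

open Vale.Agent.P026.TP

/-- the constant -/
noncomputable def Cg (ε lam Q : ℝ) : ℝ := 48 / ε ^ 2 * (135 * Q + 2 / lam)

theorem zfx_core {a : ℂ} {θ ε lam Q Y : ℝ} (hθ : 1 / 2 ≤ θ) (hε : 0 < ε) (hε1 : θ + ε ≤ 1)
    (hl : 0 < lam) (hQ : 1 ≤ Q) (hY : 1 ≤ Y) {g : ℂ → ℂ}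
    (hg : DifferentiableOn ℂ g (ball a (2 - θ - ε / 2)))
    (hg0 : ∀ s ∈ ball a (2 - θ - ε / 2), g s ≠ 0)
    (hA : ∀ s ∈ ball a (2 - θ - ε / 2), ‖g s‖ ≤ 45 * Q * Y ^ 2) (hlow : 1 / 3 ≤ ‖g a‖) {s : ℂ}
    (hs : ‖s - a‖ ≤ 2 - θ - ε) :
    ‖deriv g s / g s‖ ≤ Cg ε lam Q * Y ^ lam := by
  have hY0 : 0 < Y := by linarith
  set m : ℝ := Real.log (135 * Q * Y ^ 2) with hm
  have hYQ : 1 ≤ Q * Y ^ 2 := by nlinarith [mul_le_mul hQ (one_le_pow₀ hY (n := 2)) zero_le_one (by linarith)]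
  have h135 : 1 < 135 * Q * Y ^ 2 := by nlinarith
  have hm0 : 0 < m := Real.log_pos h135
  have hem : Real.exp m = 135 * Q * Y ^ 2 := Real.exp_log (by linarith)
  have hm' : 45 * Q * Y ^ 2 ≤ ‖g a‖ * Real.exp m := by
    rw [hem]
    nlinarith
  obtain ⟨-, h2⟩ := bc_bounds (by linarith : (0 : ℝ) ≤ 2 - θ - ε)
    (by linarith : 2 - θ - ε < 2 - θ - ε / 2) hg hg0 hA hm0 hm' hs
  have hmle : m ≤ (135 * Q + 2 / lam) * Y ^ lam := by
    have e1 : m = Real.log (135 * Q) + 2 * Real.log Y := by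
      rw [hm, Real.log_mul (by positivity) (by positivity), Real.log_pow]
      push_cast
      ring
    have e2 : Real.log (135 * Q) ≤ 135 * Q :=
      (Real.log_le_sub_one_of_pos (by positivity)).trans (by linarith)
    have e3 : Real.log Y ≤ Y ^ lam / lam := Real.log_le_rpow_div hY0.le hl
    have e4 : 1 ≤ Y ^ lam := Real.one_le_rpow hY hl.le
    have e5 : 135 * Q ≤ 135 * Q * Y ^ lam := le_mul_of_one_le_right (by positivity) e4
    rw [e1]
    calc Real.log (135 * Q) + 2 * Real.log Y ≤ 135 * Q * Y ^ lam + 2 * (Y ^ lam / lam) := by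
          linarith
      _ = _ := by ring
  have hRr : (2 - θ - ε / 2 - (2 - θ - ε)) = ε / 2 := by ring
  rw [hRr] at h2
  calc ‖deriv g s / g s‖ ≤ 8 * m * (2 - θ - ε / 2) / (ε / 2) ^ 2 := h2
    _ ≤ 8 * m * (3 / 2) / (ε / 2) ^ 2 := by
        gcongr
        linarith
    _ = 48 / ε ^ 2 * m := by field_simp; ring
    _ ≤ 48 / ε ^ 2 * ((135 * Q + 2 / lam) * Y ^ lam) :=
        mul_le_mul_of_nonneg_left hmle (by positivity)
    _ = Cg ε lam Q * Y ^ lam := by unfold Cg; ring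

theorem ball_facts' {R t : ℝ} (hR : R ≤ 3 / 2) {z : ℂ}
    (hz : z ∈ ball ((2 : ℂ) + (t : ℂ) * Complex.I) R) :
    2 - R < z.re ∧ 1 / 2 ≤ z.re ∧ ‖z‖ ≤ 5 * (1 + |t|) ∧ ‖z - 1‖ ≤ 4 * (1 + |t|) := by
  rw [mem_ball, dist_eq_norm] at hz
  have h1 : |(z - ((2 : ℂ) + (t : ℂ) * Complex.I)).re| < R := (Complex.abs_re_le_norm _).trans_lt hz
  have h2 : |(z - ((2 : ℂ) + (t : ℂ) * Complex.I)).im| < R := (Complex.abs_im_le_norm _).trans_lt hz
  simp only [Complex.sub_re, Complex.add_re, Complex.ofReal_re, Complex.mul_re, Complex.I_re,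
    mul_zero, Complex.ofReal_im, Complex.I_im, mul_one, sub_self, add_zero, Complex.sub_im,
    Complex.add_im, Complex.mul_im, zero_add, Complex.re_ofNat, Complex.im_ofNat] at h1 h2
  rw [abs_lt] at h1 h2
  have ht := abs_nonneg t
  have h3 : |z.im| ≤ |t| + 3 / 2 := by
    have e1 : z.im = t + (z.im - t) := by ring
    have e2 : |z.im - t| ≤ 3 / 2 := abs_le.mpr ⟨by linarith, by linarith⟩
    calc |z.im| = |t + (z.im - t)| := by rw [← e1]
      _ ≤ |t| + |z.im - t| := abs_add_le _ _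
      _ ≤ |t| + 3 / 2 := by linarith
  have hz0 : 1 / 2 ≤ z.re := by linarith
  refine ⟨by linarith, hz0, ?_, ?_⟩
  · have := Complex.norm_le_abs_re_add_abs_im z
    rw [abs_of_nonneg (by linarith : 0 ≤ z.re)] at this
    linarith
  · have h4 := Complex.norm_le_abs_re_add_abs_im (z - 1)
    simp only [Complex.sub_re, Complex.one_re, Complex.sub_im, Complex.one_im, sub_zero] at h4
    have h5 : |z.re - 1| ≤ 5 / 2 := abs_le.mpr ⟨by linarith, by linarith⟩
    linarith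

theorem near_centre' {θ ε : ℝ} {s : ℂ} (h1 : θ + ε ≤ s.re) (h2 : s.re ≤ 2) :
    ‖s - ((2 : ℂ) + (s.im : ℂ) * Complex.I)‖ ≤ 2 - θ - ε := by
  have e1 : s - ((2 : ℂ) + (s.im : ℂ) * Complex.I) = ((s.re - 2 : ℝ) : ℂ) := by
    apply Complex.ext <;> simp
  rw [e1, Complex.norm_real, Real.norm_eq_abs, abs_le]
  constructor <;> linarith

/-- nonprincipal characters -/
theorem zfx_nontriv {θ ε lam : ℝ} (hθ : 1 / 2 ≤ θ) (hε : 0 < ε) (hε1 : θ + ε ≤ 1) (hl : 0 < lam)
    {q : ℕ} [NeZero q] {χ : DirichletCharacter ℂ q} (hχ : χ ≠ 1)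
    (hz : ∀ s : ℂ, θ < s.re → s.re < 1 → LFunction χ s ≠ 0) {s : ℂ}
    (h1 : θ + ε ≤ s.re) (h2 : s.re ≤ 2) :
    LFunction χ s ≠ 0 ∧
      ‖deriv (LFunction χ) s / LFunction χ s‖ ≤ Cg ε lam q * (1 + |s.im|) ^ lam := by
  have hq : (1 : ℝ) ≤ q := by exact_mod_cast Nat.one_le_iff_ne_zero.mpr (NeZero.ne q)
  have ht := abs_nonneg s.im
  have hY1 : 1 ≤ 1 + |s.im| := by linarith
  have hne : ∀ z : ℂ, θ < z.re → LFunction χ z ≠ 0 := by
    intro z hz1
    by_cases h : z.re < 1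
    · exact hz z hz1 h
    · exact LFunction_ne_zero_of_one_le_re χ (Or.inl hχ) (not_lt.mp h)
  refine ⟨hne s (by linarith), ?_⟩
  refine zfx_core (a := (2 : ℂ) + (s.im : ℂ) * Complex.I) hθ hε hε1 hl hq hY1
    (differentiable_LFunction hχ).differentiableOn ?_ ?_ ?_ (near_centre' h1 h2)
  · intro z hz1
    have := (ball_facts' (by linarith) hz1).1
    exact hne z (by linarith)
  · intro z hz1
    obtain ⟨_, f2, f3, _⟩ := ball_facts' (by linarith) hz1
    refine (Gr.norm_LFunction_le hχ (by linarith)).trans ?_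
    have e1 : (q : ℝ) / z.re ≤ 2 * q := by
      rw [div_le_iff₀ (by linarith)]
      nlinarith
    calc ‖z‖ * (q / z.re) ≤ (5 * (1 + |s.im|)) * (2 * q) :=
          mul_le_mul f3 e1 (by positivity) (by positivity)
      _ = q * (10 * (1 + |s.im|)) := by ring
      _ ≤ q * (45 * (1 + |s.im|) ^ 2) := by
          refine mul_le_mul_of_nonneg_left ?_ (by linarith)
          nlinarith
      _ = 45 * q * (1 + |s.im|) ^ 2 := by ring
  · have := Gr.ll_inv q χ ((2 : ℂ) + (s.im : ℂ) * Complex.I) (by simp) (by simp)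
    simp only [Complex.add_re, Complex.re_ofNat, Complex.mul_re, Complex.ofReal_re, Complex.I_re,
      mul_zero, Complex.ofReal_im, Complex.I_im, mul_one, sub_self, add_zero] at this
    linarith

/-- the principal character -/
theorem zfx_triv {θ ε lam : ℝ} (hθ : 1 / 2 ≤ θ) (hε : 0 < ε) (hε1 : θ + ε ≤ 1) (hl : 0 < lam)
    {q : ℕ} [NeZero q]
    (hz : ∀ s : ℂ, θ < s.re → s.re < 1 → LFunction (1 : DirichletCharacter ℂ q) s ≠ 0) {s : ℂ}
    (h1 : θ + ε ≤ s.re) (h2 : s.re ≤ 2) :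
    LFunctionTrivChar₁ q s ≠ 0 ∧
      ‖deriv (LFunctionTrivChar₁ q) s / LFunctionTrivChar₁ q s‖ ≤
        Cg ε lam q * (1 + |s.im|) ^ lam := by
  have hq : (1 : ℝ) ≤ q := by exact_mod_cast Nat.one_le_iff_ne_zero.mpr (NeZero.ne q)
  have ht := abs_nonneg s.im
  have hY1 : 1 ≤ 1 + |s.im| := by linarith
  have hne : ∀ z : ℂ, θ < z.re → LFunctionTrivChar₁ q z ≠ 0 := by
    intro z hz1
    by_cases h : z = 1
    · subst h
      exact LFunctionTrivChar₁_apply_one_ne_zero q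
    · rw [LFunctionTrivChar₁, Function.update_of_ne h]
      refine mul_ne_zero (sub_ne_zero.mpr h) ?_
      by_cases h' : z.re < 1
      · exact hz z hz1 h'
      · exact LFunction_ne_zero_of_one_le_re _ (Or.inr h) (not_lt.mp h')
  refine ⟨hne s (by linarith), ?_⟩
  refine zfx_core (a := (2 : ℂ) + (s.im : ℂ) * Complex.I) hθ hε hε1 hl hq hY1
    (differentiable_LFunctionTrivChar₁ q).differentiableOn ?_ ?_ ?_ (near_centre' h1 h2)
  · intro z hz1
    have := (ball_facts' (by linarith) hz1).1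
    exact hne z (by linarith)
  · intro z hz1
    obtain ⟨_, f2, f3, f4⟩ := ball_facts' (by linarith) hz1
    refine (Gr.norm_triv_le q (by linarith)).trans ?_
    have e1 : ‖z‖ / z.re ≤ 2 * (5 * (1 + |s.im|)) := by
      rw [div_le_iff₀ (by linarith)]
      nlinarith
    calc (q : ℝ) * (‖z‖ + ‖z - 1‖ * (‖z‖ / z.re))
        ≤ q * (5 * (1 + |s.im|) + (4 * (1 + |s.im|)) * (2 * (5 * (1 + |s.im|)))) := by
          gcongr
      _ ≤ q * (45 * (1 + |s.im|) ^ 2) := by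
          refine mul_le_mul_of_nonneg_left ?_ (by linarith)
          nlinarith
      _ = 45 * q * (1 + |s.im|) ^ 2 := by ring
  · set a : ℂ := (2 : ℂ) + (s.im : ℂ) * Complex.I with ha
    have hare : a.re = 2 := by simp [ha]
    have hane : a ≠ 1 := by
      intro h
      rw [h] at hare
      simp at hare
    rw [LFunctionTrivChar₁, Function.update_of_ne hane, norm_mul]
    have e1 := Gr.ll_inv q (1 : DirichletCharacter ℂ q) a (by rw [hare]; norm_num)
      (by rw [hare])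
    rw [hare] at e1
    have e2 : 1 ≤ ‖a - 1‖ := by
      have := Complex.abs_re_le_norm (a - 1)
      simp only [Complex.sub_re, hare, Complex.one_re] at this
      norm_num at this
      exact this
    calc (1 / 3 : ℝ) = 1 * ((2 - 1) / 3) := by norm_num
      _ ≤ ‖a - 1‖ * ‖LFunction (1 : DirichletCharacter ℂ q) a‖ :=
          mul_le_mul e2 e1 (by norm_num) (norm_nonneg _)

end Vale.Agent.P026.AG
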