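import Vale.Agent.P026.AG.Defs
import Vale.Agent.P026.TP.Cube

/-!
# P026 AG: powers of the generating function, power sums and Abel summation
-/

open Finset ArithmeticFunction

namespace Vale.Agent.P026.AG

open Vale.Agent.P026.TP

theorem G_nonneg (k n : ℕ) : 0 ≤ G k n := by
  induction k generalizing n with
  | zero => rw [G]; split_ifs <;> norm_num
  | succ k ih =>
    rw [G]
    exact Finset.sum_nonneg fun m _ => mul_nonneg vonMangoldt_nonneg (ih _)

theorem G_succ (k n : ℕ) : G (k + 1) n = ∑ x ∈ antidiagonal n, vonMangoldt x.1 * G k x.2 := by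
  rw [G, Finset.Nat.sum_antidiagonal_eq_sum_range_succ (fun i j => vonMangoldt i * G k j)]

theorem FL_pow (k : ℕ) {z : ℂ} (hz : ‖z‖ < 1) :
    Summable (fun n : ℕ => ‖(G k n : ℂ) * z ^ n‖) ∧
      FL z ^ k = ∑' n : ℕ, (G k n : ℂ) * z ^ n := by
  induction k with
  | zero =>
    have h0 : ∀ n : ℕ, n ≠ 0 → (G 0 n : ℂ) * z ^ n = 0 := by
      intro n hn
      simp [G, hn]
    refine ⟨?_, ?_⟩
    · refine summable_of_ne_finset_zero (s := {0}) fun n hn => ?_
      rw [h0 n (by simpa using hn), norm_zero]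
    · rw [tsum_eq_single 0 h0]
      simp [G]
  | succ k ih =>
    obtain ⟨ih1, ih2⟩ := ih
    have hs := summable_FL hz
    have h3 := tsum_mul_tsum_eq_tsum_sum_antidiagonal_of_summable_norm hs ih1
    have hcs := summable_norm_sum_mul_antidiagonal_of_summable_norm hs ih1
    have heq : ∀ n, ∑ kl ∈ antidiagonal n, ((vonMangoldt kl.1 : ℂ) * z ^ kl.1) *
        ((G k kl.2 : ℂ) * z ^ kl.2) = (G (k + 1) n : ℂ) * z ^ n := by
      intro n
      rw [G_succ]
      push_cast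
      rw [Finset.sum_mul]
      refine Finset.sum_congr rfl fun x hx => ?_
      rw [Finset.HasAntidiagonal.mem_antidiagonal] at hx
      rw [← hx, pow_add]
      ring
    simp only [heq] at hcs h3
    refine ⟨hcs, ?_⟩
    rw [← h3, pow_succ', ih2]
    rfl

/-- `∑ (n + 1)^k rⁿ ≤ k! T^(k+1)` -/
theorem sum_pow_le (k : ℕ) {r : ℝ} (hr0 : 0 ≤ r) (hr1 : r < 1) :
    Summable (fun n : ℕ => ((n : ℝ) + 1) ^ k * r ^ n) ∧
      ∑' n : ℕ, ((n : ℝ) + 1) ^ k * r ^ n ≤ (k.factorial : ℝ) * (1 / (1 - r)) ^ (k + 1) := by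
  have hrn : ‖r‖ < 1 := by rwa [Real.norm_of_nonneg hr0]
  have h0 := hasSum_choose_mul_geometric_of_norm_lt_one k hrn
  have hle : ∀ n : ℕ, ((n : ℝ) + 1) ^ k * r ^ n ≤
      (k.factorial : ℝ) * (((n + k).choose k : ℕ) * r ^ n) := by
    intro n
    have h1 : ((n : ℝ) + 1) ^ k ≤ (k.factorial : ℝ) * ((n + k).choose k : ℕ) := by
      have h2 : (n + 1) ^ k ≤ k.factorial * (n + k).choose k := by
        rw [← Nat.descFactorial_eq_factorial_mul_choose]
        have := Nat.pow_sub_le_descFactorial (n + k) k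
        have h3 : n + k + 1 - k = n + 1 := by omega
        rwa [h3] at this
      exact_mod_cast h2
    rw [← mul_assoc]
    exact mul_le_mul_of_nonneg_right h1 (pow_nonneg hr0 n)
  have hs := h0.mul_left (k.factorial : ℝ)
  have hsum : Summable (fun n : ℕ => ((n : ℝ) + 1) ^ k * r ^ n) :=
    Summable.of_nonneg_of_le (fun n => by positivity) hle hs.summable
  refine ⟨hsum, (hsum.tsum_le_tsum hle hs.summable).trans ?_⟩
  rw [hs.tsum_eq, one_div_pow]

theorem sum_pow_le' (k : ℕ) {r : ℝ} (hr0 : 0 ≤ r) (hr1 : r < 1) :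
    Summable (fun n : ℕ => (n : ℝ) ^ k * r ^ n) ∧
      ∑' n : ℕ, (n : ℝ) ^ k * r ^ n ≤ (k.factorial : ℝ) * (1 / (1 - r)) ^ (k + 1) := by
  obtain ⟨h1, h2⟩ := sum_pow_le k hr0 hr1
  have hle : ∀ n : ℕ, (n : ℝ) ^ k * r ^ n ≤ ((n : ℝ) + 1) ^ k * r ^ n := by
    intro n
    gcongr
    linarith
  have hsum : Summable (fun n : ℕ => (n : ℝ) ^ k * r ^ n) :=
    Summable.of_nonneg_of_le (fun n => by positivity) hle h1
  exact ⟨hsum, (hsum.tsum_le_tsum hle h1).trans h2⟩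

/-- `∑ n^k / k! rⁿ = T^(k+1) + O(T^k)` -/
theorem sum_main (k : ℕ) (hk : 1 ≤ k) : ∃ C : ℝ, 0 ≤ C ∧ ∀ r : ℝ, 0 ≤ r → r < 1 →
    |∑' n : ℕ, (n : ℝ) ^ k / (k.factorial : ℝ) * r ^ n - (1 / (1 - r)) ^ (k + 1)| ≤
      C * (1 / (1 - r)) ^ k := by
  refine ⟨(k : ℝ) * (k : ℝ) * (k : ℝ) ^ (k - 1), by positivity, fun r hr0 hr1 => ?_⟩
  have hk1 : (1 : ℝ) ≤ k := by exact_mod_cast hk
  have hrn : ‖r‖ < 1 := by rwa [Real.norm_of_nonneg hr0]
  have hd : 0 < 1 - r := by linarith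
  have h0 := hasSum_choose_mul_geometric_of_norm_lt_one k hrn
  rw [← one_div_pow] at h0
  obtain ⟨h1, -⟩ := sum_pow_le' k hr0 hr1
  have hf0 : (0 : ℝ) < k.factorial := by exact_mod_cast k.factorial_pos
  have h1' : Summable (fun n : ℕ => (n : ℝ) ^ k / (k.factorial : ℝ) * r ^ n) := by
    refine (h1.mul_left ((k.factorial : ℝ)⁻¹)).congr fun n => ?_
    rw [div_eq_inv_mul]; ring
  obtain ⟨h2, h3⟩ := sum_pow_le (k - 1) hr0 hr1
  have hk' : k - 1 + 1 = k := by omega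
  rw [hk'] at h3
  rw [← h0.tsum_eq, ← h1'.tsum_sub h0.summable]
  -- pointwise
  have hpt : ∀ n : ℕ, |(n : ℝ) ^ k / (k.factorial : ℝ) * r ^ n - ((n + k).choose k : ℕ) * r ^ n| ≤
      (k : ℝ) * (k : ℝ) * (k : ℝ) ^ (k - 1) / (k.factorial : ℝ) *
        (((n : ℝ) + 1) ^ (k - 1) * r ^ n) := by
    intro n
    have hrp : 0 ≤ r ^ n := pow_nonneg hr0 n
    have e1 : (n : ℝ) ^ k ≤ (k.factorial : ℝ) * ((n + k).choose k : ℕ) := by
      have h2 : (n + 1) ^ k ≤ k.factorial * (n + k).choose k := by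
        rw [← Nat.descFactorial_eq_factorial_mul_choose]
        have := Nat.pow_sub_le_descFactorial (n + k) k
        have h3 : n + k + 1 - k = n + 1 := by omega
        rwa [h3] at this
      have h4 : n ^ k ≤ (n + 1) ^ k := Nat.pow_le_pow_left (by omega) k
      exact_mod_cast h4.trans h2
    have e2 : (k.factorial : ℝ) * ((n + k).choose k : ℕ) ≤ ((n : ℝ) + k) ^ k := by
      have h2 : k.factorial * (n + k).choose k ≤ (n + k) ^ k := by
        rw [← Nat.descFactorial_eq_factorial_mul_choose]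
        exact Nat.descFactorial_le_pow _ _
      exact_mod_cast h2
    have e3 : ((n : ℝ) + k) ^ k - (n : ℝ) ^ k ≤
        (k : ℝ) * ((k : ℝ) * ((k : ℝ) ^ (k - 1) * ((n : ℝ) + 1) ^ (k - 1))) := by
      have g1 : ((n : ℝ) + k) ^ k - (n : ℝ) ^ k ≤ (k : ℝ) * ((k : ℝ) * ((n : ℝ) + k) ^ (k - 1)) := by
        have hge := Commute.mul_geom_sum₂ (Commute.all ((n : ℝ) + k) (n : ℝ)) k
        rw [← hge, add_sub_cancel_left]
        refine mul_le_mul_of_nonneg_left ?_ (by positivity)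
        calc ∑ i ∈ range k, ((n : ℝ) + k) ^ i * (n : ℝ) ^ (k - 1 - i)
            ≤ ∑ i ∈ range k, ((n : ℝ) + k) ^ (k - 1) := by
              refine Finset.sum_le_sum fun i hi => ?_
              rw [Finset.mem_range] at hi
              calc ((n : ℝ) + k) ^ i * (n : ℝ) ^ (k - 1 - i)
                  ≤ ((n : ℝ) + k) ^ i * ((n : ℝ) + k) ^ (k - 1 - i) := by
                    gcongr; linarith
                _ = ((n : ℝ) + k) ^ (k - 1) := by
                    rw [← pow_add]; congr 1; omega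
          _ = (k : ℝ) * ((n : ℝ) + k) ^ (k - 1) := by
              rw [Finset.sum_const, Finset.card_range, nsmul_eq_mul]
      refine g1.trans ?_
      rw [← mul_pow]
      gcongr
      nlinarith
    rw [← sub_mul, abs_mul, abs_of_nonneg hrp, ← mul_assoc]
    refine mul_le_mul_of_nonneg_right ?_ hrp
    rw [abs_le]
    have e4 : (n : ℝ) ^ k / (k.factorial : ℝ) ≤ ((n + k).choose k : ℕ) := by
      rw [div_le_iff₀ hf0]; linarith
    have e5 : 0 ≤ (k : ℝ) * (k : ℝ) * (k : ℝ) ^ (k - 1) / (k.factorial : ℝ) *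
        ((n : ℝ) + 1) ^ (k - 1) := by positivity
    refine ⟨?_, by linarith⟩
    have e6 : (((n + k).choose k : ℕ) : ℝ) - (n : ℝ) ^ k / (k.factorial : ℝ) ≤
        (k : ℝ) * (k : ℝ) * (k : ℝ) ^ (k - 1) / (k.factorial : ℝ) * ((n : ℝ) + 1) ^ (k - 1) := by
      have e7 : (((n + k).choose k : ℕ) : ℝ) - (n : ℝ) ^ k / (k.factorial : ℝ) =
          ((k.factorial : ℝ) * ((n + k).choose k : ℕ) - (n : ℝ) ^ k) / (k.factorial : ℝ) := by
        field_simp
      have e8 : (k : ℝ) * (k : ℝ) * (k : ℝ) ^ (k - 1) / (k.factorial : ℝ) *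
          ((n : ℝ) + 1) ^ (k - 1) = ((k : ℝ) * ((k : ℝ) * ((k : ℝ) ^ (k - 1) *
            ((n : ℝ) + 1) ^ (k - 1)))) / (k.factorial : ℝ) := by ring
      rw [e7, e8]
      exact div_le_div_of_nonneg_right (by linarith) hf0.le
    linarith
  have hB : HasSum (fun n : ℕ => (k : ℝ) * (k : ℝ) * (k : ℝ) ^ (k - 1) / (k.factorial : ℝ) *
      (((n : ℝ) + 1) ^ (k - 1) * r ^ n)) ((k : ℝ) * (k : ℝ) * (k : ℝ) ^ (k - 1) /
        (k.factorial : ℝ) * ∑' n : ℕ, ((n : ℝ) + 1) ^ (k - 1) * r ^ n) := h2.hasSum.mul_left _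
  have hfin := tsum_of_norm_bounded hB (f := fun n : ℕ => (n : ℝ) ^ k / (k.factorial : ℝ) * r ^ n -
    ((n + k).choose k : ℕ) * r ^ n) (fun n => by rw [Real.norm_eq_abs]; exact hpt n)
  rw [Real.norm_eq_abs] at hfin
  refine hfin.trans ?_
  have hT0 : 0 < (1 / (1 - r)) ^ k := by positivity
  have hf1 : (((k - 1).factorial : ℕ) : ℝ) ≤ (k.factorial : ℝ) := by
    exact_mod_cast Nat.factorial_le (by omega)
  calc (k : ℝ) * (k : ℝ) * (k : ℝ) ^ (k - 1) / (k.factorial : ℝ) *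
        ∑' n : ℕ, ((n : ℝ) + 1) ^ (k - 1) * r ^ n
      ≤ (k : ℝ) * (k : ℝ) * (k : ℝ) ^ (k - 1) / (k.factorial : ℝ) *
        ((k.factorial : ℝ) * (1 / (1 - r)) ^ k) :=
        mul_le_mul_of_nonneg_left (h3.trans (mul_le_mul_of_nonneg_right hf1 hT0.le))
          (by positivity)
    _ = _ := by field_simp

end Vale.Agent.P026.AG
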