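import Vale.Agent.P026.AG.Growth
import Vale.Agent.P026.AG.Exact2
import Vale.Agent.P026.TP.M1

/-!
# P026 AG: primes in progressions with the exact exponent
-/

open Finset Real DirichletCharacter ArithmeticFunction

namespace Vale.Agent.P026.AG

open Vale.Agent.P026.TP

open ArithmeticFunction.vonMangoldt in
theorem psi_unit {q : ℕ} [NeZero q] {θ ε : ℝ} (hθ : 1 / 2 ≤ θ) (hε : 0 < ε) (hε1 : θ + ε < 1)
    (hz : ∀ χ : DirichletCharacter ℂ q, ∀ s : ℂ, θ < s.re → s.re < 1 → LFunction χ s ≠ 0)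
    {a : ZMod q} (ha : IsUnit a) :
    ∃ C : ℝ, 0 ≤ C ∧ ∀ x : ℝ, 1 ≤ x →
      ‖∑ n ∈ Icc 1 ⌊x⌋₊, (residueClass a n : ℂ) - ((Nat.totient q : ℂ))⁻¹ * x‖ ≤
        C * x ^ (θ + 2 * ε) := by
  classical
  have hq : (1 : ℝ) ≤ q := by exact_mod_cast Nat.one_le_iff_ne_zero.mpr (NeZero.ne q)
  have hl0 : 0 < ε / 2 := by positivity
  obtain ⟨S, hS, hAux⟩ := aux_eq a
  have key := exact_power (fun n => (residueClass a n : ℂ)) ((Nat.totient q : ℂ))⁻¹
    (LFunctionResidueClassAux a) (σ := θ + ε) (B := Cg ε (ε / 2) q + S.card * Cg ε (ε / 2) q)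
    (lam := ε / 2) (by linarith) hε1 hl0 (by linarith) ?_ ?_ ?_ ?_ ?_
  · obtain ⟨C, hC0, hC⟩ := key
    refine ⟨C, hC0, fun x hx => ?_⟩
    have e1 : θ + ε + 2 * (ε / 2) = θ + 2 * ε := by ring
    have := hC x hx
    rwa [e1] at this
  · intro n hn
    rw [Complex.norm_real, Real.norm_of_nonneg (residueClass_nonneg a n)]
    have := (residueClass_le a n).trans vonMangoldt_le_log
    linarith
  · refine LSeriesSummable_of_abscissaOfAbsConv_lt_re ?_
    refine (abscissaOfAbsConv_residueClass_le_one a).trans_lt ?_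
    rw [Complex.ofReal_re]
    exact_mod_cast (by norm_num : (1 : ℝ) < 2)
  · intro s hs
    have := eqOn_LFunctionResidueClassAux ha hs
    simp only at this
    rw [this]
    ring
  · intro s hs1 hs2
    have hT := zfx_triv hθ hε hε1.le hl0 (hz 1) hs1 hs2
    have hL : ∀ χ : DirichletCharacter ℂ q, χ ≠ 1 → _ := fun χ hχ =>
      zfx_nontriv hθ hε hε1.le hl0 hχ (hz χ) hs1 hs2
    have d1 : DifferentiableAt ℂ (fun s => -deriv (LFunctionTrivChar₁ q) s /
        LFunctionTrivChar₁ q s) s := by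
      refine DifferentiableAt.fun_div ?_ (differentiable_LFunctionTrivChar₁ q s) hT.1
      exact ((differentiable_LFunctionTrivChar₁ q).contDiff.differentiable_deriv_two s).neg
    have d2 : DifferentiableAt ℂ (fun s => ∑ χ ∈ S,
        χ a⁻¹ * deriv (LFunction χ) s / LFunction χ s) s := by
      refine DifferentiableAt.fun_sum fun χ hχ => ?_
      have hχ' : χ ≠ 1 := (hS χ).mp hχ
      refine DifferentiableAt.fun_div ?_ (differentiable_LFunction hχ' s) (hL χ hχ').1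
      exact ((differentiable_LFunction hχ').contDiff.differentiable_deriv_two s).const_mul _
    rw [hAux]
    exact (d1.sub d2).const_mul _
  · intro s hs1 hs2
    have hT := zfx_triv hθ hε hε1.le hl0 (hz 1) hs1 hs2
    set W : ℝ := Cg ε (ε / 2) q * (1 + |s.im|) ^ (ε / 2) with hW
    have hW0 : 0 ≤ W := (norm_nonneg _).trans hT.2
    have hφ1 : (1 : ℝ) ≤ Nat.totient q := by
      exact_mod_cast Nat.totient_pos.mpr q.pos_of_neZero
    rw [hAux]
    simp only
    rw [norm_mul, norm_inv, Complex.norm_natCast]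
    have e1 : ‖-deriv (LFunctionTrivChar₁ q) s / LFunctionTrivChar₁ q s -
        ∑ χ ∈ S,
          χ a⁻¹ * deriv (LFunction χ) s / LFunction χ s‖ ≤ W + S.card * W := by
      refine (norm_sub_le _ _).trans ?_
      have e2 : ‖-deriv (LFunctionTrivChar₁ q) s / LFunctionTrivChar₁ q s‖ ≤ W := by
        rw [neg_div, norm_neg]
        exact hT.2
      have e3 : ‖∑ χ ∈ S,
          χ a⁻¹ * deriv (LFunction χ) s / LFunction χ s‖ ≤
          ∑ χ ∈ S, W := by
        refine norm_sum_le_of_le _ fun χ hχ => ?_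
        have hχ' : χ ≠ 1 := (hS χ).mp hχ
        have e4 := (zfx_nontriv hθ hε hε1.le hl0 hχ' (hz χ) hs1 hs2).2
        rw [mul_div_assoc, norm_mul]
        calc ‖χ a⁻¹‖ * ‖deriv (LFunction χ) s / LFunction χ s‖ ≤ 1 * W :=
              mul_le_mul (χ.norm_le_one _) e4 (norm_nonneg _) zero_le_one
          _ = W := one_mul W
      rw [Finset.sum_const, nsmul_eq_mul] at e3
      exact add_le_add e2 e3
    calc ((Nat.totient q : ℝ))⁻¹ * _ ≤ 1 * (W + S.card * W) :=
          mul_le_mul (inv_le_one_of_one_le₀ hφ1) e1 (norm_nonneg _) zero_le_one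
      _ = (Cg ε (ε / 2) q + S.card * Cg ε (ε / 2) q) * (1 + |s.im|) ^ (ε / 2) := by
          rw [hW]; ring

theorem psiAP_residue {q : ℕ} [NeZero q] (a : ℕ) (x : ℝ) :
    ∑ n ∈ Icc 1 ⌊x⌋₊, (vonMangoldt.residueClass (a : ZMod q) n : ℂ) =
      ((psiAP x q a : ℝ) : ℂ) := by
  rw [psiAP, Finset.sum_filter]
  push_cast
  refine Finset.sum_congr rfl fun n _ => ?_
  rw [vonMangoldt.residueClass, Set.indicator_apply]
  have : n ∈ {n : ℕ | (n : ZMod q) = (a : ZMod q)} ↔ n ≡ a [MOD q] := by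
    rw [Set.mem_ofPred_eq]
    exact ZMod.natCast_eq_natCast_iff n a q
  simp only [this]

/-- primes in progressions with the exact exponent -/
theorem psi_exact {q : ℕ} [NeZero q] {θ : ℝ} (hθ : 1 / 2 ≤ θ) (hθ1 : θ < 1) (hZ : LZeros q θ)
    {ε : ℝ} (hε : 0 < ε) :
    ∃ C : ℝ, 0 ≤ C ∧ ∀ (a : ℕ) (x : ℝ), Nat.Coprime a q → 1 ≤ x →
      |psiAP x q a - x / (Nat.totient q : ℝ)| ≤ C * x ^ (θ + ε) := by
  classical
  set ε' : ℝ := min ε (1 - θ) / 2 with hε'
  have hm : 0 < min ε (1 - θ) := lt_min hε (by linarith)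
  have h0 : 0 < ε' := by positivity
  have h1 : θ + ε' < 1 := by
    have := min_le_right ε (1 - θ)
    linarith
  have h2 : 2 * ε' ≤ ε := by
    have := min_le_left ε (1 - θ)
    linarith
  have hz : ∀ χ : DirichletCharacter ℂ q, ∀ s : ℂ, θ < s.re → s.re < 1 →
      LFunction χ s ≠ 0 := by
    intro χ s hs1 hs2 h0
    have := hZ χ s (by linarith) hs2 h0
    linarith
  have hex : ∀ b : ZMod q, ∃ C : ℝ, 0 ≤ C ∧ (IsUnit b → ∀ x : ℝ, 1 ≤ x →
      ‖∑ n ∈ Icc 1 ⌊x⌋₊, (vonMangoldt.residueClass b n : ℂ) - ((Nat.totient q : ℂ))⁻¹ * x‖ ≤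
        C * x ^ (θ + 2 * ε')) := by
    intro b
    by_cases hb : IsUnit b
    · obtain ⟨C, hC0, hC⟩ := psi_unit hθ h0 h1 hz hb
      exact ⟨C, hC0, fun _ => hC⟩
    · exact ⟨0, le_rfl, fun h => absurd h hb⟩
  choose C hC0 hC using hex
  refine ⟨∑ b : ZMod q, C b, Finset.sum_nonneg fun b _ => hC0 b, fun a x haq hx => ?_⟩
  have ha : IsUnit (a : ZMod q) := (ZMod.isUnit_iff_coprime a q).mpr haq
  have h := hC (a : ZMod q) ha x hx
  have e2 : ∑ n ∈ Icc 1 ⌊x⌋₊, (vonMangoldt.residueClass (a : ZMod q) n : ℂ) -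
      ((Nat.totient q : ℂ))⁻¹ * x = ((psiAP x q a - x / (Nat.totient q : ℝ) : ℝ) : ℂ) := by
    rw [psiAP_residue]
    push_cast
    ring
  rw [e2, Complex.norm_real, Real.norm_eq_abs] at h
  refine h.trans ?_
  have h3 : C (a : ZMod q) ≤ ∑ b : ZMod q, C b :=
    Finset.single_le_sum (fun b _ => hC0 b) (Finset.mem_univ _)
  have h4 : x ^ (θ + 2 * ε') ≤ x ^ (θ + ε) := Real.rpow_le_rpow_of_exponent_le hx (by linarith)
  exact mul_le_mul h3 h4 (by positivity) (Finset.sum_nonneg fun b _ => hC0 b)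

end Vale.Agent.P026.AG
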